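import Vale.Agent.P047.Spectrum

/-!
Balancing and composition: one Boolean function beating the square root of its degree by a unit
gives unboundedly many, beating any multiple of the square root.
-/

namespace Vale.Agent.P047

open Finset

variable {α β κ : Type*}

theorem isBool_spin_mul {g : (κ → Bool) → ℝ} (hg : IsBool g) (x : κ → Bool) :
    spin (decide (g x = 1)) = g x := by
  rcases hg x with h | h <;> norm_num [h, spin]

theorem chi_map (e : κ ↪ β) (T : Finset κ) (x : β → Bool) :
    chi (T.map e) x = chi T (fun k => x (e k)) := by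
  simp [chi, Finset.prod_map]

variable [Fintype α] [DecidableEq α] [Fintype β] [DecidableEq β] [Fintype κ] [DecidableEq κ]

theorem fhat_eq_zero_of_degree {f : (κ → Bool) → ℝ} {S : Finset κ} (h : degree f < S.card) :
    fhat f S = 0 := by
  by_contra hne
  exact absurd (Finset.le_sup (f := Finset.card) (mem_filter.2 ⟨mem_univ S, hne⟩)) (not_le.2 h)

theorem mem_of_degree {f : (κ → Bool) → ℝ} {D : ℕ} (hD : degree f ≤ D) :
    f ∈ Sp (Lim univ D False) := by
  refine mem_Sp_of_fhat fun S hS => fhat_eq_zero_of_degree ?_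
  by_contra h
  exact hS ⟨subset_univ _, (not_lt.1 h).trans hD, False.elim⟩

theorem lift_mem (e : κ ↪ β) {g : (κ → Bool) → ℝ} {D : ℕ} (hD : degree g ≤ D)
    (h0 : cubeAvg g = 0) :
    (fun x : β → Bool => g fun k => x (e k)) ∈ Sp (Lim (univ.map e) D True) := by
  have hx : (fun x : β → Bool => g fun k => x (e k))
      = ∑ S : Finset κ, fhat g S • chi (S.map e) := by
    funext x
    conv_lhs => rw [fourier_eq g]
    simp [chi_map]
  rw [hx]
  refine Submodule.sum_mem _ fun S _ => ?_
  by_cases h : fhat g S = 0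
  · simp [h]
  refine Submodule.smul_mem _ _ (chi_mem ⟨map_subset_map.2 (subset_univ _), ?_, fun _ => ?_⟩)
  · rw [card_map]
    exact le_trans (Finset.le_sup (f := Finset.card) (mem_filter.2 ⟨mem_univ S, h⟩)) hD
  · rw [map_nonempty, nonempty_iff_ne_empty]
    rintro rfl
    exact h (by rw [← cubeAvg_eq_fhat]; exact h0)

/-- The composition of `F` with copies of `g` on the blocks given by `e`. -/
noncomputable def comp (e : α × κ ≃ β) (F : (α → Bool) → ℝ) (g : (κ → Bool) → ℝ)
    (x : β → Bool) : ℝ :=
  F fun j => decide (g (fun k => x (e (j, k))) = 1)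

/-- The embedding of the `j`-th block. -/
def blockEmb (e : α × κ ≃ β) (j : α) : κ ↪ β :=
  ⟨fun k => e (j, k), fun a b h => (Prod.ext_iff.1 (e.injective h)).2⟩

theorem comp_eq (e : α × κ ≃ β) (F : (α → Bool) → ℝ) {g : (κ → Bool) → ℝ} (hg : IsBool g) :
    comp e F g = ∑ S : Finset α, fhat F S • ∏ j ∈ S,
      (fun x : β → Bool => g fun k => x (blockEmb e j k)) := by
  funext x
  simp only [Finset.sum_apply, Pi.smul_apply, smul_eq_mul, Finset.prod_apply]
  unfold comp
  conv_lhs => rw [fourier_eq F]
  simp only [Finset.sum_apply, Pi.smul_apply, smul_eq_mul, chi, isBool_spin_mul hg]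
  rfl

theorem degree_comp (e : α × κ ≃ β) (F : (α → Bool) → ℝ) {g : (κ → Bool) → ℝ} (hg : IsBool g)
    (h0 : cubeAvg g = 0) {a D : ℕ} (ha : degree F ≤ a) (hD : degree g ≤ D) :
    degree (comp e F g) ≤ a * D := by
  refine degree_le (Γ := univ) (ne := False) ?_
  rw [comp_eq e F hg]
  refine Submodule.sum_mem _ fun S hSu => ?_
  clear hSu
  by_cases h : fhat F S = 0
  · simp [h]
  refine Submodule.smul_mem _ _ ?_
  have hS : S.card ≤ a :=
    le_trans (Finset.le_sup (f := Finset.card) (mem_filter.2 ⟨mem_univ S, h⟩)) ha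
  suffices key : (∏ j ∈ S, fun x : β → Bool => g fun k => x (blockEmb e j k))
      ∈ Sp (Lim (S.biUnion fun j => univ.map (blockEmb e j)) (S.card * D) False) from
    Lim_mono (subset_univ _) (Nat.mul_le_mul_right D hS) id key
  clear h hS
  induction S using Finset.induction with
  | empty =>
    rw [prod_empty, biUnion_empty, card_empty, Nat.zero_mul]
    exact one_mem ∅ 0 not_false
  | insert j T hj ih =>
    have hd : Disjoint (univ.map (blockEmb e j))
        (T.biUnion fun i => univ.map (blockEmb e i)) := by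
      rw [disjoint_biUnion_right]
      intro i hi
      rw [disjoint_left]
      intro y hy hy'
      obtain ⟨k, -, rfl⟩ := mem_map.1 hy
      obtain ⟨k', -, h⟩ := mem_map.1 hy'
      have h' : i = j := (Prod.ext_iff.1 (e.injective h)).1
      exact hj (h' ▸ hi)
    have := Lim_mul hd (lift_mem (blockEmb e j) hD h0) ih
    rw [prod_insert hj, biUnion_insert, card_insert_of_notMem hj]
    exact Lim_mono (subset_refl _) (le_of_eq (by ring)) False.elim this

/-- Blocks are independent. -/
theorem cubeAvg_blocks (e : α × κ ≃ β) (w : α → (κ → Bool) → ℝ) :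
    cubeAvg (fun x : β → Bool => ∏ j, w j fun k => x (e (j, k))) = ∏ j, cubeAvg (w j) := by
  let E : (β → Bool) ≃ (α → κ → Bool) :=
    (Equiv.arrowCongr e.symm (Equiv.refl Bool)).trans (Equiv.curry α κ Bool)
  have h1 : ∑ x : β → Bool, ∏ j, w j (fun k => x (e (j, k))) = ∑ y : α → κ → Bool, ∏ j, w j (y j) :=
    Fintype.sum_equiv E _ _ fun x => rfl
  simp only [cubeAvg]
  rw [h1, Finset.prod_div_distrib, Fintype.prod_sum, prod_const, card_univ, ← pow_mul,
    ← Fintype.card_congr e, Fintype.card_prod, mul_comm (Fintype.card α)]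

theorem avg_prod_lift (e : α × κ ≃ β) {g : (κ → Bool) → ℝ} (h0 : cubeAvg g = 0)
    (S : Finset α) :
    cubeAvg (∏ j ∈ S, fun x : β → Bool => g fun k => x (blockEmb e j k))
      = if S = ∅ then 1 else 0 := by
  have : (∏ j ∈ S, fun x : β → Bool => g fun k => x (blockEmb e j k))
      = fun x => ∏ j, (if j ∈ S then g else fun _ => 1) fun k => x (e (j, k)) := by
    funext x
    rw [Finset.prod_apply, ← prod_filter_mul_prod_filter_not univ (· ∈ S)]
    rw [filter_mem_eq_inter, univ_inter]
    rw [prod_eq_one (s := univ.filter fun j => j ∉ S) (fun j hj => by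
      simp [(mem_filter.1 hj).2]), mul_one]
    exact prod_congr rfl fun j hj => by rw [if_pos hj]; rfl
  rw [this, cubeAvg_blocks e (fun j => if j ∈ S then g else fun _ => 1)]
  split_ifs with h
  · subst h; simp [cubeAvg_const]
  · obtain ⟨j, hj⟩ := nonempty_iff_ne_empty.2 h
    exact prod_eq_zero (mem_univ j) (by simp [hj, h0])

theorem fhat_prod_lift (e : α × κ ≃ β) {g : (κ → Bool) → ℝ} (h0 : cubeAvg g = 0)
    (S : Finset α) (j : α) (k : κ) :
    fhat (∏ i ∈ S, fun x : β → Bool => g fun l => x (blockEmb e i l)) {e (j, k)}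
      = if S = {j} then fhat g {k} else 0 := by
  let w : α → (κ → Bool) → ℝ := fun i y =>
    (if i ∈ S then g y else 1) * (if i = j then spin (y k) else 1)
  have : (fun x : β → Bool => (∏ i ∈ S, fun x : β → Bool => g fun l => x (blockEmb e i l)) x
      * chi {e (j, k)} x) = fun x => ∏ i, w i fun l => x (e (i, l)) := by
    funext x
    simp only [w, prod_mul_distrib, Fintype.prod_ite_mem, Finset.prod_ite_eq', mem_univ, if_true,
      chi_singleton, Finset.prod_apply]
    rfl
  rw [fhat, this, cubeAvg_blocks e w]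
  by_cases h : S = {j}
  · subst h
    rw [if_pos rfl, prod_eq_single j]
    · simp [w, fhat, chi_singleton]
    · intro i _ hi
      simp [w, hi, cubeAvg_const]
    · simp
  · rw [if_neg h]
    by_cases hj : j ∈ S
    · obtain ⟨i, hi, hij⟩ : ∃ i ∈ S, i ≠ j := by
        by_contra hc
        push Not at hc
        exact h (eq_singleton_iff_unique_mem.2 ⟨hj, hc⟩)
      exact prod_eq_zero (mem_univ i) (by simp [w, hi, hij, h0])
    · refine prod_eq_zero (mem_univ j) ?_
      have h1 : w j = chi {k} := by funext y; simp [w, hj]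
      rw [h1, cubeAvg_chi, if_neg (singleton_ne_empty k)]

theorem cubeAvg_sum_smul {γ : Type*} (s : Finset γ) (a : γ → ℝ) (F : γ → (β → Bool) → ℝ) :
    cubeAvg (∑ i ∈ s, a i • F i) = ∑ i ∈ s, a i * cubeAvg (F i) := by
  simp only [cubeAvg, Finset.sum_apply, Pi.smul_apply, smul_eq_mul]
  rw [sum_comm, sum_div]
  exact sum_congr rfl fun i _ => by rw [← mul_sum, mul_div_assoc]

theorem fhat_sum_smul {γ : Type*} (s : Finset γ) (a : γ → ℝ) (F : γ → (β → Bool) → ℝ)
    (T : Finset β) : fhat (∑ i ∈ s, a i • F i) T = ∑ i ∈ s, a i * fhat (F i) T := by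
  have : (fun x => (∑ i ∈ s, a i • F i) x * chi T x)
      = ∑ i ∈ s, a i • fun x => F i x * chi T x := by
    funext x; simp [sum_mul, mul_assoc]
  rw [fhat, this, cubeAvg_sum_smul]; rfl

theorem linSum_comp (e : α × κ ≃ β) (F : (α → Bool) → ℝ) {g : (κ → Bool) → ℝ} (hg : IsBool g)
    (h0 : cubeAvg g = 0) : linSum (comp e F g) = linSum F * linSum g := by
  simp only [linSum, comp_eq e F hg, fhat_sum_smul]
  rw [← e.sum_comp, Fintype.sum_prod_type, sum_mul_sum]
  refine sum_congr rfl fun j _ => sum_congr rfl fun k _ => ?_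
  simp only [fhat_prod_lift e h0]
  simp

theorem cubeAvg_comp (e : α × κ ≃ β) {F : (α → Bool) → ℝ} {g : (κ → Bool) → ℝ} (hg : IsBool g)
    (h0 : cubeAvg g = 0) (hF : cubeAvg F = 0) : cubeAvg (comp e F g) = 0 := by
  rw [comp_eq e F hg, cubeAvg_sum_smul]
  simp only [avg_prod_lift e h0]
  simp [← cubeAvg_eq_fhat, hF]

/-- Composition powers of a balanced function. -/
theorem exists_power {g : (κ → Bool) → ℝ} {D : ℕ} (hg : IsBool g) (h0 : cubeAvg g = 0)
    (hD : degree g ≤ D) (m : ℕ) :
    ∃ (n : ℕ) (h : (Fin n → Bool) → ℝ), IsBool h ∧ cubeAvg h = 0 ∧ degree h ≤ D ^ m ∧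
      linSum h = linSum g ^ m := by
  induction m with
  | zero =>
    refine ⟨1, chi {0}, fun x => ?_, ?_, ?_, ?_⟩
    · cases hx : x 0 <;> simp [chi, spin, hx]
    · rw [cubeAvg_chi, if_neg (singleton_ne_empty _)]
    · refine Finset.sup_le fun S hS => ?_
      have := (mem_filter.1 hS).2
      rw [fhat_chi] at this
      split_ifs at this with h
      · simp [← h]
      · exact absurd rfl this
    · simp [linSum, fhat_chi]
  | succ m ih =>
    obtain ⟨n, h, hb, hz, hd, hl⟩ := ih
    let e : Fin n × κ ≃ Fin (Fintype.card (Fin n × κ)) := Fintype.equivFin _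
    refine ⟨_, comp e h g, fun x => hb _, cubeAvg_comp e hg h0 hz, ?_, ?_⟩
    · rw [pow_succ]; exact degree_comp e h hg h0 hd hD
    · rw [linSum_comp e h hg h0, hl, pow_succ]

theorem linSum_zero_of_degree {f : (κ → Bool) → ℝ} (h : degree f = 0) : linSum f = 0 :=
  sum_eq_zero fun i _ => fhat_eq_zero_of_degree (by simp [h])

/-- A balanced function obtained with one more coordinate. -/
noncomputable def balance (f : (κ → Bool) → ℝ) (x : Option κ → Bool) : ℝ :=
  if x none then f (fun i => x (some i)) else -f (fun i => !x (some i))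

theorem isBool_balance {f : (κ → Bool) → ℝ} (hf : IsBool f) : IsBool (balance f) := by
  intro x
  unfold balance
  split_ifs
  · exact hf _
  · rcases hf fun i => !x (some i) with h | h <;> simp [h]

theorem sum_option (F : (Option κ → Bool) → ℝ) :
    ∑ x, F x = ∑ y : κ → Bool, F (fun o => o.elim true y) + ∑ y : κ → Bool, F (fun o => o.elim false y) := by
  let E : (Option κ → Bool) ≃ Bool × (κ → Bool) := Equiv.piOptionEquivProd
  rw [← E.symm.sum_comp, Fintype.sum_prod_type, Fintype.sum_bool]
  congr 1 <;> refine sum_congr rfl fun y _ => congrArg F (funext fun o => ?_) <;> cases o <;> rfl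

theorem sum_flip (G : (κ → Bool) → ℝ) : ∑ y : κ → Bool, G (fun i => !y i) = ∑ y, G y :=
  (Equiv.arrowCongr (Equiv.refl κ) Equiv.boolNot).sum_comp G

theorem cubeAvg_balance (f : (κ → Bool) → ℝ) : cubeAvg (balance f) = 0 := by
  rw [cubeAvg, sum_option]
  simp [balance, sum_flip]

theorem balance_eq (f : (κ → Bool) → ℝ) :
    balance f = ∑ S : Finset κ, fhat f S •
      (((1 - (-1) ^ S.card) / 2 : ℝ) • chi (S.map Function.Embedding.some) +
        ((1 + (-1) ^ S.card) / 2 : ℝ) •
          (chi {none} * chi (S.map Function.Embedding.some))) := by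
  funext x
  simp only [Finset.sum_apply, Pi.smul_apply, Pi.add_apply, Pi.mul_apply, smul_eq_mul, chi_map,
    chi_singleton, Function.Embedding.some_apply]
  have hflip : ∀ S : Finset κ, chi S (fun i => !x (some i))
      = (-1) ^ S.card * chi S (fun i => x (some i)) := fun S => by
    rw [chi, chi, ← prod_const, ← prod_mul_distrib]
    exact prod_congr rfl fun i _ => by rw [spin_not]; ring
  unfold balance
  conv_lhs => rw [fourier_eq f]
  cases x none <;> simp only [Finset.sum_apply, Pi.smul_apply, smul_eq_mul, spin, hflip,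
    Bool.false_eq_true, if_false, if_true, ← sum_neg_distrib] <;>
    exact sum_congr rfl fun S _ => by ring

theorem degree_balance {f : (κ → Bool) → ℝ} {D : ℕ} (hD : degree f ≤ D) :
    degree (balance f) ≤ D + 1 := by
  refine degree_le (Γ := univ) (ne := False) ?_
  rw [balance_eq f]
  refine Submodule.sum_mem _ fun S _ => ?_
  by_cases h : fhat f S = 0
  · simp [h]
  have hS : S.card ≤ D :=
    le_trans (Finset.le_sup (f := Finset.card) (mem_filter.2 ⟨mem_univ S, h⟩)) hD
  have h1 : chi (S.map Function.Embedding.some) ∈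
      Sp (Lim (S.map Function.Embedding.some : Finset (Option κ)) D False) :=
    chi_mem ⟨subset_refl _, by rw [card_map]; exact hS, False.elim⟩
  have h2 : chi {none} ∈ Sp (Lim ({none} : Finset (Option κ)) 1 False) :=
    chi_mem ⟨subset_refl _, by simp, False.elim⟩
  refine Submodule.smul_mem _ _ (Submodule.add_mem _ (Submodule.smul_mem _ _ ?_)
    (Submodule.smul_mem _ _ ?_))
  · exact Lim_mono (subset_univ _) (Nat.le_succ D) id h1
  · refine Lim_mono (subset_univ _) (le_of_eq (add_comm 1 D)) ?_ (Lim_mul ?_ h2 h1)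
    · simp
    · simp

theorem linSum_balance (f : (κ → Bool) → ℝ) : linSum (balance f) = cubeAvg f + linSum f := by
  rw [linSum_eq, linSum_eq, cubeAvg, sum_option]
  have hA : ∀ y : κ → Bool,
      balance f (fun o => o.elim true y) * ∑ o : Option κ, spin (o.elim true y)
        = f y + f y * ∑ i, spin (y i) := fun y => by
    have e1 : balance f (fun o => o.elim true y) = f y := if_pos rfl
    rw [e1, Fintype.sum_option]
    show f y * (spin true + ∑ i, spin (y i)) = _
    rw [show spin true = 1 from rfl]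
    ring
  have hB : ∀ y : κ → Bool,
      balance f (fun o => o.elim false y) * ∑ o : Option κ, spin (o.elim false y)
        = f (fun i => !y i) + f (fun i => !y i) * ∑ i, spin (!y i) := fun y => by
    have e1 : balance f (fun o => o.elim false y) = -f (fun i => !y i) :=
      if_neg Bool.false_ne_true
    rw [e1, Fintype.sum_option]
    show -f (fun i => !y i) * (spin false + ∑ i, spin (y i)) = _
    rw [show spin false = -1 from rfl]
    simp only [spin_not, sum_neg_distrib]
    ring
  simp only [hA, hB]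
  rw [sum_flip (fun z => f z + f z * ∑ i, spin (z i))]
  simp only [cubeAvg, Fintype.card_option, pow_succ, sum_add_distrib]
  field_simp
  ring

theorem abs_cubeAvg_le_one {f : (κ → Bool) → ℝ} (hf : IsBool f) : |cubeAvg f| ≤ 1 := by
  rw [cubeAvg, abs_div, abs_of_pos (by positivity : (0:ℝ) < 2 ^ Fintype.card κ),
    div_le_one (by positivity)]
  refine (abs_sum_le_sum_abs _ _).trans ?_
  have : ∀ x, |f x| = 1 := fun x => by rcases hf x with h | h <;> simp [h]
  simp [this]

/-- One Boolean function with linear sum above `√(D+1) + 1` refutes every square-root bound. -/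
theorem amplify {ι : Type*} [Fintype ι] [DecidableEq ι] (f : (ι → Bool) → ℝ) (hf : IsBool f)
    (D : ℕ) (hD : degree f ≤ D) (hL : Real.sqrt (D + 1) + 1 < linSum f) :
    (∀ C : ℝ, ∃ (n : ℕ) (g : (Fin n → Bool) → ℝ),
      IsBool g ∧ C * Real.sqrt (degree g) < linSum g) ∧
    ∃ δ : ℝ, 0 < δ ∧ ∀ B : ℕ, ∃ (d n : ℕ) (g : (Fin n → Bool) → ℝ),
      B ≤ d ∧ IsBool g ∧ degree g ≤ d ∧ (d : ℝ) ^ (1 / 2 + δ) ≤ linSum g := by
  set L := linSum (balance f) with hLdef
  set b : ℝ := ((D : ℝ) + 1) with hbdef
  have hs0 : 0 ≤ Real.sqrt b := Real.sqrt_nonneg _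
  have hD1 : 1 ≤ D := by
    by_contra h
    have : linSum f = 0 := linSum_zero_of_degree (by omega)
    rw [this] at hL
    linarith
  have hb2 : (2:ℝ) ≤ b := by
    have : (1:ℝ) ≤ D := by exact_mod_cast hD1
    linarith
  have hLb : Real.sqrt b < L := by
    have := (abs_le.1 (abs_cubeAvg_le_one hf)).1
    rw [hLdef, linSum_balance f]
    linarith
  have hsp : 0 < Real.sqrt b := Real.sqrt_pos.2 (by linarith)
  have hL0 : 0 < L := hsp.trans hLb
  have key := exists_power (isBool_balance hf) (cubeAvg_balance f) (degree_balance hD)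
  have hcast : ∀ m : ℕ, (((D + 1) ^ m : ℕ) : ℝ) = b ^ m := fun m => by simp [hbdef]
  constructor
  · intro C
    obtain ⟨m, hm⟩ := pow_unbounded_of_one_lt |C| ((one_lt_div hsp).2 hLb)
    obtain ⟨n, g, hg, -, hd, hl⟩ := key m
    refine ⟨n, g, hg, ?_⟩
    rw [hl]
    have h1 : Real.sqrt (degree g) ≤ Real.sqrt b ^ m := by
      have : Real.sqrt (b ^ m) = Real.sqrt b ^ m := by
        rw [Real.sqrt_eq_iff_mul_self_eq (by positivity) (by positivity), ← mul_pow,
          Real.mul_self_sqrt (by linarith)]
      rw [← this]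
      exact Real.sqrt_le_sqrt (by rw [← hcast]; exact_mod_cast hd)
    calc C * Real.sqrt (degree g) ≤ |C| * Real.sqrt b ^ m := by
          exact (mul_le_mul_of_nonneg_right (le_abs_self C) (Real.sqrt_nonneg _)).trans
            (mul_le_mul_of_nonneg_left h1 (abs_nonneg C))
      _ < (L / Real.sqrt b) ^ m * Real.sqrt b ^ m := by gcongr
      _ = L ^ m := by rw [← mul_pow, div_mul_cancel₀ _ hsp.ne']
  · have hlog : 0 < Real.log b := Real.log_pos (by linarith)
    refine ⟨Real.log L / Real.log b - 1 / 2, ?_, fun B => ?_⟩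
    · have := Real.log_lt_log hsp hLb
      rw [Real.log_sqrt (by linarith)] at this
      rw [sub_pos, lt_div_iff₀ hlog]
      linarith
    · obtain ⟨n, g, hg, -, hd, hl⟩ := key B
      refine ⟨(D + 1) ^ B, n, g, (Nat.lt_pow_self (by omega)).le, hg, hd, le_of_eq ?_⟩
      rw [hl, hcast, show (1:ℝ) / 2 + (Real.log L / Real.log b - 1 / 2)
        = Real.log L / Real.log b from by ring]
      rw [← Real.rpow_natCast b B, ← Real.rpow_mul (by linarith), mul_comm, Real.rpow_mul (by linarith),
        Real.rpow_natCast]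
      congr 1
      rw [Real.rpow_def_of_pos (by linarith), mul_div_cancel₀ _ hlog.ne', Real.exp_log hL0]

end Vale.Agent.P047
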