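import Vale.Agent.P047.Spread

/-!
Disjoint subsets with equal sums covering almost all of a set.
-/

namespace Vale.Agent.P047

open Finset

theorem exists_perm_image {γ : Type*} [Fintype γ] [DecidableEq γ] (Z Z' : Finset γ)
    (h : Z.card = Z'.card) : ∃ π : Equiv.Perm γ, Z.map π.toEmbedding = Z' := by
  let e : {x // x ∈ Z} ≃ {x // x ∈ Z'} := Finset.equivOfCardEq h
  refine ⟨e.extendSubtype, eq_of_subset_of_card_le ?_ (by rw [card_map, h])⟩
  intro a ha
  obtain ⟨b, hb, rfl⟩ := mem_map.1 ha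
  exact e.extendSubtype_mem b hb

/-- If few sets are bad, some disjoint sets are all good. -/
theorem exists_disjoint_good {α : Type*} [DecidableEq α] (X : Finset α) (q a : ℕ)
    (hqa : q * a ≤ X.card) (bad : Finset α → Prop) [DecidablePred bad]
    (hbad : q * ((X.powersetCard a).filter bad).card < X.card.choose a) :
    ∃ Y : Fin q → Finset α, (∀ c, Y c ⊆ X) ∧ (∀ c c', c ≠ c' → Disjoint (Y c) (Y c')) ∧
      ∀ c, ¬ bad (Y c) := by
  classical
  set γ := {x // x ∈ X}
  have hγ : Fintype.card γ = X.card := Fintype.card_coe X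
  set emb : γ ↪ α := Function.Embedding.subtype _
  let e : Fin X.card ≃ γ := (Fintype.equivFinOfCardEq hγ).symm
  let f : Fin q → Fin a ↪ Fin X.card := fun c =>
    ⟨fun i => ⟨(finProdFinEquiv (c, i) : Fin (q * a)), lt_of_lt_of_le (Fin.is_lt _) hqa⟩, by
      intro i j h
      have : (finProdFinEquiv (c, i) : Fin (q * a)) = finProdFinEquiv (c, j) := by
        ext; exact congrArg (fun z : Fin X.card => (z : ℕ)) h
      simpa using this⟩
  let Y0 : Fin q → Finset γ := fun c => univ.map ((f c).trans e.toEmbedding)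
  have hY0c : ∀ c, (Y0 c).card = a := fun c => by simp [Y0]
  have hY0d : ∀ c c', c ≠ c' → Disjoint (Y0 c) (Y0 c') := by
    intro c c' hne
    rw [disjoint_left]
    intro z hz hz'
    obtain ⟨i, -, rfl⟩ := mem_map.1 hz
    obtain ⟨j, -, hj⟩ := mem_map.1 hz'
    have h := e.injective hj
    have : (finProdFinEquiv (c', j) : Fin (q * a)) = finProdFinEquiv (c, i) := by
      ext; exact congrArg (fun z : Fin X.card => (z : ℕ)) h
    simp only [EmbeddingLike.apply_eq_iff_eq, Prod.mk.injEq] at this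
    exact hne this.1.symm
  by_contra hcon
  push Not at hcon
  -- every permutation sends some part to a bad set
  set Fl : Finset (Finset γ) := (univ.powersetCard a).filter fun Z => bad (Z.map emb)
  have hcover : (univ : Finset (Equiv.Perm γ)) ⊆ univ.biUnion fun c =>
      univ.filter fun σ : Equiv.Perm γ => (Y0 c).map σ.toEmbedding ∈ Fl := by
    intro σ _
    obtain ⟨c, hc⟩ := hcon (fun c => ((Y0 c).map σ.toEmbedding).map emb)
      (fun c z hz => by obtain ⟨w, -, rfl⟩ := mem_map.1 hz; exact w.2)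
      (fun c c' hne => (disjoint_map _).2 ((disjoint_map _).2 (hY0d c c' hne)))
    refine mem_biUnion.2 ⟨c, mem_univ _, mem_filter.2 ⟨mem_univ _, mem_filter.2 ⟨?_, hc⟩⟩⟩
    exact mem_powersetCard.2 ⟨subset_univ _, by rw [card_map, hY0c]⟩
  have hK : ∀ c, ∀ Z ∈ (univ : Finset γ).powersetCard a, ∀ Z' ∈ (univ : Finset γ).powersetCard a,
      (univ.filter fun σ : Equiv.Perm γ => (Y0 c).map σ.toEmbedding = Z).card ≤
      (univ.filter fun σ : Equiv.Perm γ => (Y0 c).map σ.toEmbedding = Z').card := by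
    intro c Z hZ Z' hZ'
    obtain ⟨π, hπ⟩ := exists_perm_image Z Z'
      ((mem_powersetCard.1 hZ).2.trans (mem_powersetCard.1 hZ').2.symm)
    refine card_le_card_of_injOn (fun σ => σ.trans π) ?_ ?_
    · intro σ hσ
      refine mem_filter.2 ⟨mem_univ _, ?_⟩
      have h1 : ∀ S : Finset γ, S.map (σ.trans π).toEmbedding
          = (S.map σ.toEmbedding).map π.toEmbedding := fun S => by rw [map_map]; rfl
      rw [h1, (mem_filter.1 hσ).2, hπ]
    · intro σ _ σ' _ h
      exact Equiv.ext fun z => π.injective (Equiv.ext_iff.1 h z)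
  have hone : ∀ c, (univ.filter fun σ : Equiv.Perm γ => (Y0 c).map σ.toEmbedding ∈ Fl).card
      * X.card.choose a = Fl.card * Fintype.card (Equiv.Perm γ) := by
    intro c
    obtain ⟨K, hKeq⟩ : ∃ K, ∀ Z ∈ (univ : Finset γ).powersetCard a,
        (univ.filter fun σ : Equiv.Perm γ => (Y0 c).map σ.toEmbedding = Z).card = K :=
      ⟨(univ.filter fun σ : Equiv.Perm γ => (Y0 c).map σ.toEmbedding = Y0 c).card, fun Z hZ =>
        le_antisymm (hK c Z hZ _ (mem_powersetCard.2 ⟨subset_univ _, hY0c c⟩))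
          (hK c _ (mem_powersetCard.2 ⟨subset_univ _, hY0c c⟩) Z hZ)⟩
    have h1 : (univ.filter fun σ : Equiv.Perm γ => (Y0 c).map σ.toEmbedding ∈ Fl).card
        = Fl.card * K := by
      rw [card_eq_sum_card_fiberwise (s := univ.filter fun σ : Equiv.Perm γ =>
          (Y0 c).map σ.toEmbedding ∈ Fl) (f := fun σ : Equiv.Perm γ => (Y0 c).map σ.toEmbedding)
        (t := Fl) (fun σ hσ => (mem_filter.1 hσ).2), ← smul_eq_mul, ← sum_const]
      refine sum_congr rfl fun Z hZ => ?_
      rw [filter_filter, ← hKeq Z (mem_filter.1 hZ).1]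
      congr 1
      refine filter_congr fun σ _ => ?_
      exact ⟨fun h => h.2, fun h => ⟨h ▸ hZ, h⟩⟩
    have h2 : Fintype.card (Equiv.Perm γ) = X.card.choose a * K := by
      rw [← card_univ, card_eq_sum_card_fiberwise (f := fun σ : Equiv.Perm γ => (Y0 c).map σ.toEmbedding)
        (t := (univ : Finset γ).powersetCard a)
        (fun σ _ => mem_powersetCard.2 ⟨subset_univ _, by rw [card_map, hY0c]⟩)]
      rw [sum_congr rfl hKeq, sum_const, card_powersetCard, card_univ, hγ, smul_eq_mul]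
    rw [h1, h2]; ring
  have hFl : Fl.card ≤ ((X.powersetCard a).filter bad).card := by
    refine card_le_card_of_injOn (fun Z => Z.map emb) ?_ ?_
    · intro Z hZ
      obtain ⟨hZ1, hZ2⟩ := mem_filter.1 hZ
      refine mem_filter.2 ⟨mem_powersetCard.2 ⟨fun z hz => ?_, ?_⟩, hZ2⟩
      · obtain ⟨w, -, rfl⟩ := mem_map.1 hz; exact w.2
      · rw [card_map, (mem_powersetCard.1 hZ1).2]
    · intro Z _ Z' _ h; exact map_injective emb h
  have h3 : Fintype.card (Equiv.Perm γ) * X.card.choose a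
      ≤ q * Fl.card * Fintype.card (Equiv.Perm γ) := by
    calc Fintype.card (Equiv.Perm γ) * X.card.choose a
        ≤ (∑ c, (univ.filter fun σ : Equiv.Perm γ => (Y0 c).map σ.toEmbedding ∈ Fl).card)
            * X.card.choose a := by
          refine Nat.mul_le_mul_right _ ?_
          rw [← card_univ]
          exact (card_le_card hcover).trans card_biUnion_le
      _ = _ := by
          rw [sum_mul, sum_congr rfl fun c _ => hone c, sum_const, card_univ, Fintype.card_fin,
            smul_eq_mul, mul_assoc]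
  have h4 : q * Fl.card < X.card.choose a := lt_of_le_of_lt (Nat.mul_le_mul_left _ hFl) hbad
  have h5 : 0 < Fintype.card (Equiv.Perm γ) := Fintype.card_pos
  have h6 := Nat.mul_lt_mul_of_pos_right h4 h5
  rw [mul_comm (Fintype.card (Equiv.Perm γ))] at h3
  omega

theorem pow_le_choose_of_large (n κ r : ℕ) (h : 4 * κ * r ≤ n) (hκ : 0 < κ) :
    (2 * κ) ^ r ≤ n.choose r := by
  have h1 : (2 * κ * r) ^ r ≤ n.descFactorial r := by
    refine le_trans (Nat.pow_le_pow_left ?_ r) (Nat.pow_sub_le_descFactorial n r)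
    have h2 : r ≤ κ * r := Nat.le_mul_of_pos_left r hκ
    have h3 : 4 * κ * r = 2 * (2 * κ * r) := by ring
    have h4 : 2 * κ * r = 2 * (κ * r) := by ring
    omega
  rw [Nat.descFactorial_eq_factorial_mul_choose] at h1
  refine Nat.le_of_mul_le_mul_left (le_trans ?_ h1) r.factorial_pos
  rw [mul_pow (2 * κ), mul_comm r.factorial]
  exact Nat.mul_le_mul_left _ r.factorial_le_pow

/-- In a large set there are `q` disjoint nonempty subsets of equal size and equal sums. -/
theorem exists_tuple {α J : Type*} [DecidableEq α] [Fintype J] (X : Finset α) (v : J → α → ℤ)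
    (q N : ℕ) (hq : 2 ≤ q) (hX : X.card ≤ 2 ^ N) (hv : ∀ j, ∀ a ∈ X, |v j a| ≤ 1)
    (hbig : 64 * q ^ 2 * (N + 1) ^ 2 * ((Fintype.card J + 1) * (N + 2)) ≤ X.card) :
    ∃ C : Fin q → Finset α, (∀ c, C c ⊆ X) ∧ (∀ c c', c ≠ c' → Disjoint (C c) (C c')) ∧
      (∀ c c', (C c).card = (C c').card) ∧
      (∀ j c c', ∑ a ∈ C c, v j a = ∑ a ∈ C c', v j a) ∧ (∀ c, (C c).Nonempty) := by
  classical
  obtain ⟨r, hr⟩ : ∃ r, r = (Fintype.card J + 1) * (N + 2) := ⟨_, rfl⟩
  obtain ⟨κ, hκ⟩ : ∃ κ, κ = 16 * q ^ 2 * (N + 1) ^ 2 := ⟨_, rfl⟩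
  have hκ0 : 0 < κ := by rw [hκ]; positivity
  have hr0 : 0 < r := by rw [hr]; positivity
  have h4 : 4 * κ * r ≤ X.card := by rw [hκ, hr]; linarith
  -- a large family with equal sums
  let τ : Finset α → J → ℤ := fun S j => ∑ a ∈ S, v j a
  set box : Finset (J → ℤ) := Fintype.piFinset fun _ => Icc (-(2 : ℤ) ^ N) ((2 : ℤ) ^ N)
  have hmaps : ∀ S ∈ X.powersetCard r, τ S ∈ box := by
    intro S hS
    refine Fintype.mem_piFinset.2 fun j => ?_
    obtain ⟨hSX, -⟩ := mem_powersetCard.1 hS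
    have h1 : |τ S j| ≤ (2 : ℤ) ^ N := by
      refine (abs_sum_le_sum_abs _ _).trans ?_
      refine (sum_le_card_nsmul S _ 1 fun a ha => hv j a (hSX ha)).trans ?_
      rw [nsmul_eq_mul, mul_one]
      exact_mod_cast (card_le_card hSX).trans hX
    rw [mem_Icc]; exact abs_le.1 h1
  have hbox : box.card ≤ 2 ^ ((N + 2) * Fintype.card J) := by
    rw [Fintype.card_piFinset, prod_const, card_univ, pow_mul]
    refine Nat.pow_le_pow_left ?_ _
    rw [Int.card_Icc]
    have : (2 : ℤ) ^ N + 1 - -(2 : ℤ) ^ N = ((2 * 2 ^ N + 1 : ℕ) : ℤ) := by push_cast; ring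
    rw [this, Int.toNat_natCast, pow_add]
    have : 0 < 2 ^ N := Nat.two_pow_pos N
    omega
  obtain ⟨τ0, -, hτ0⟩ : ∃ τ0 ∈ box, κ ^ r < ((X.powersetCard r).filter fun S => τ S = τ0).card := by
    refine exists_lt_card_fiber_of_mul_lt_card_of_maps_to hmaps ?_
    rw [card_powersetCard]
    refine lt_of_lt_of_le ?_ (pow_le_choose_of_large X.card κ r h4 hκ0)
    rw [mul_pow]
    refine Nat.mul_lt_mul_of_pos_right ?_ (pow_pos hκ0 r)
    refine lt_of_le_of_lt hbox (Nat.pow_lt_pow_right (by norm_num) ?_)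
    rw [hr]
    linarith
  set F := (X.powersetCard r).filter fun S => τ S = τ0
  -- a spread subfamily
  set g : Finset α → ℕ := fun T => (F.filter fun S => T ⊆ S).card * κ ^ T.card
  obtain ⟨T0, hT0, hmax⟩ := exists_max_image X.powerset g ⟨∅, empty_mem_powerset X⟩
  have hg : κ ^ r < g T0 := by
    refine lt_of_lt_of_le hτ0 (le_trans (le_of_eq ?_) (hmax ∅ (empty_mem_powerset X)))
    simp [g, F]
  set s := F.filter fun S => T0 ⊆ S
  have hs : ∀ S ∈ s, S ⊆ X ∧ S.card = r ∧ τ S = τ0 ∧ T0 ⊆ S := by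
    intro S hS
    obtain ⟨hSF, hST⟩ := mem_filter.1 hS
    obtain ⟨hSp, hSτ⟩ := mem_filter.1 hSF
    exact ⟨(mem_powersetCard.1 hSp).1, (mem_powersetCard.1 hSp).2, hSτ, hST⟩
  have hs0 : s.Nonempty := by
    rw [nonempty_iff_ne_empty]
    intro h
    simp only [g] at hg
    rw [show (F.filter fun S => T0 ⊆ S) = ∅ from h] at hg
    simp at hg
  have hTr : T0.card < r := by
    obtain ⟨S1, hS1⟩ := hs0
    have hle : T0.card ≤ r := (hs S1 hS1).2.1 ▸ card_le_card (hs S1 hS1).2.2.2
    refine lt_of_le_of_ne hle fun he => ?_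
    have : s.card ≤ 1 := by
      refine card_le_one.2 fun A hA B hB => ?_
      rw [← eq_of_subset_of_card_le (hs A hA).2.2.2 (by rw [(hs A hA).2.1, he]),
        ← eq_of_subset_of_card_le (hs B hB).2.2.2 (by rw [(hs B hB).2.1, he])]
    have h2 : g T0 ≤ 1 * κ ^ T0.card := Nat.mul_le_mul_right _ this
    rw [he, one_mul] at h2
    rw [← he] at hg h2
    omega
  set S' : Finset α → Finset α := fun S => S \ T0
  have hsp : ∀ T : Finset α, (s.filter fun S => T ⊆ S' S).card * κ ^ T.card ≤ s.card := by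
    intro T
    rcases (s.filter fun S => T ⊆ S' S).eq_empty_or_nonempty with h | ⟨A, hA⟩
    · simp [h]
    obtain ⟨hAs, hAT⟩ := mem_filter.1 hA
    have hdis : Disjoint T T0 := disjoint_of_subset_left hAT sdiff_disjoint
    have hTX : T ∪ T0 ∈ X.powerset :=
      mem_powerset.2 (union_subset ((hAT.trans sdiff_subset).trans (hs A hAs).1)
        (mem_powerset.1 hT0))
    have h1 := hmax _ hTX
    simp only [g] at h1
    have h2 : (s.filter fun S => T ⊆ S' S) ⊆ F.filter fun S => T ∪ T0 ⊆ S := by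
      intro S hS
      obtain ⟨hS1, hS2⟩ := mem_filter.1 hS
      exact mem_filter.2 ⟨(mem_filter.1 hS1).1,
        union_subset (hS2.trans sdiff_subset) (hs S hS1).2.2.2⟩
    refine Nat.le_of_mul_le_mul_right ?_ (pow_pos hκ0 T0.card)
    rw [mul_assoc, ← pow_add, ← card_union_of_disjoint hdis]
    exact le_trans (Nat.mul_le_mul_right _ (card_le_card h2)) h1
  obtain ⟨L, hL⟩ : ∃ L, L = N + 1 := ⟨_, rfl⟩
  obtain ⟨w, hw⟩ : ∃ w, w = X.card / (q * L) := ⟨_, rfl⟩
  have hqL : 0 < q * L := by rw [hL]; positivity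
  have hqLκ : q * L ≤ κ := by
    rw [hκ, hL]
    nlinarith [Nat.mul_le_mul (Nat.le_self_pow (two_ne_zero) q) (Nat.le_self_pow (two_ne_zero) (N + 1))]
  have hwpos : 0 < w := by
    rw [hw]
    refine Nat.div_pos ?_ hqL
    calc q * L ≤ 4 * κ * r := by
          calc q * L ≤ κ * 1 := by rw [mul_one]; exact hqLκ
            _ ≤ κ * (4 * r) := Nat.mul_le_mul_left _ (by omega)
            _ = 4 * κ * r := by ring
      _ ≤ X.card := h4
  have hwle : q * (L * w) ≤ X.card := by
    rw [hw, ← mul_assoc]; exact Nat.mul_div_le _ _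
  have hwge : X.card ≤ 2 * (q * L) * w := by
    have h1 := Nat.lt_mul_div_succ X.card hqL
    rw [← hw] at h1
    have h2 : q * L * (w + 1) ≤ 2 * (q * L) * w := by
      have : q * L * 1 ≤ q * L * w := Nat.mul_le_mul_left _ hwpos
      linarith
    omega
  have hκw : 16 * X.card ≤ w * κ := by
    have h1 : 32 * (q * L) ≤ κ := by
      rw [hκ, hL]
      have : 2 * 1 ≤ q * (N + 1) := Nat.mul_le_mul hq (by omega)
      nlinarith
    calc 16 * X.card ≤ 16 * (2 * (q * L) * w) := Nat.mul_le_mul_left _ hwge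
      _ = (32 * (q * L)) * w := by ring
      _ ≤ κ * w := Nat.mul_le_mul_right _ h1
      _ = w * κ := mul_comm _ _
  set r' := r - T0.card
  have hS' : ∀ S ∈ s, S' S ⊆ X ∧ (S' S).card = r' := by
    intro S hS
    obtain ⟨h1, h2, -, h3'⟩ := hs S hS
    exact ⟨sdiff_subset.trans h1, by rw [card_sdiff_of_subset h3', h2]⟩
  have hr' : r' < 2 ^ L := by
    obtain ⟨S1, hS1⟩ := hs0
    have h1 : r' ≤ 2 ^ N := (hS' S1 hS1).2 ▸ (card_le_card (hS' S1 hS1).1).trans hX
    have : 0 < 2 ^ N := Nat.two_pow_pos N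
    rw [hL, pow_succ]; omega
  have hfail := fail_count X.card w κ s.card hwpos hκw hκ0 L X s S' r' hr' le_rfl
    (fun S hS => ⟨(hS' S hS).1, (hS' S hS).2.le⟩) hsp
  set bad : Finset α → Prop := fun Y => ∀ S ∈ s, ¬ S' S ⊆ Y
  have hbad : q * ((X.powersetCard (L * w)).filter bad).card < X.card.choose (L * w) := by
    have hsR : (0 : ℝ) < s.card := by exact_mod_cast hs0.card_pos
    have hlam : 4 * ((X.card : ℝ) / ((w : ℝ) * κ)) * L * q ≤ 1 / 2 := by
      have h1 : (8 * (q * L) * X.card : ℕ) ≤ w * κ := by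
        calc 8 * (q * L) * X.card ≤ 8 * (q * L) * (2 * (q * L) * w) := Nat.mul_le_mul_left _ hwge
          _ = w * (16 * q ^ 2 * L ^ 2) := by ring
          _ = w * κ := by rw [hκ, hL]
      have h2 : (8 : ℝ) * (q * L) * X.card ≤ (w : ℝ) * κ := by exact_mod_cast h1
      rw [mul_div, div_mul_eq_mul_div, div_mul_eq_mul_div, div_le_iff₀ (by positivity)]
      linarith
    have hC : (0 : ℝ) < X.card.choose (L * w) := by
      exact_mod_cast Nat.choose_pos (le_trans (Nat.le_mul_of_pos_left _ (by omega : 0 < q)) hwle)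
    rw [sub_self, zero_add] at hfail
    have h3 : (((X.powersetCard (L * w)).filter bad).card : ℝ)
        ≤ (X.card.choose (L * w) : ℝ) * (4 * ((X.card : ℝ) / ((w : ℝ) * κ)) * L) := by
      refine le_of_mul_le_mul_right ?_ hsR
      rw [mul_assoc _ _ (s.card : ℝ)]
      exact hfail
    have h5 : (q : ℝ) * ((X.powersetCard (L * w)).filter bad).card < X.card.choose (L * w) := by
      have h6 := mul_le_mul_of_nonneg_left h3 (Nat.cast_nonneg q : (0 : ℝ) ≤ q)
      have h7 := mul_le_mul_of_nonneg_left hlam hC.le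
      linarith
    exact_mod_cast h5
  obtain ⟨Y, hYX, hYd, hYg⟩ := exists_disjoint_good X q (L * w) hwle bad hbad
  simp only [bad] at hYg
  push Not at hYg
  choose sel hsel hselY using hYg
  refine ⟨fun c => S' (sel c), fun c => (hS' _ (hsel c)).1,
    fun c c' h => (hYd c c' h).mono (hselY c) (hselY c'),
    fun c c' => by rw [(hS' _ (hsel c)).2, (hS' _ (hsel c')).2], fun j c c' => ?_,
    fun c => card_pos.1 ?_⟩
  · have key : ∀ c, ∑ a ∈ S' (sel c), v j a = τ0 j - ∑ a ∈ T0, v j a := fun c => by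
      obtain ⟨-, -, h2, h3⟩ := hs _ (hsel c)
      rw [← h2, eq_sub_iff_add_eq]
      exact sum_sdiff h3
    rw [key, key]
  · rw [(hS' _ (hsel c)).2]; omega

theorem equal_parts {α J : Type*} [DecidableEq α] [Fintype J] (X : Finset α) (v : J → α → ℤ)
    (q N : ℕ) (hq : 2 ≤ q) (hX : X.card ≤ 2 ^ N) (hv : ∀ j, ∀ a ∈ X, |v j a| ≤ 1) :
    ∃ C : Fin q → Finset α, (∀ c, C c ⊆ X) ∧ (∀ c c', c ≠ c' → Disjoint (C c) (C c')) ∧
      (∀ c c', (C c).card = (C c').card) ∧
      (∀ j c c', ∑ a ∈ C c, v j a = ∑ a ∈ C c', v j a) ∧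
      X.card < (∑ c, (C c).card) +
        64 * q ^ 2 * (N + 1) ^ 2 * ((Fintype.card J + 1) * (N + 2)) := by
  classical
  induction X using Finset.strongInduction with
  | H X ih =>
    rcases lt_or_ge X.card (64 * q ^ 2 * (N + 1) ^ 2 * ((Fintype.card J + 1) * (N + 2))) with h | h
    · exact ⟨fun _ => ∅, by simp, by simp, by simp, by simp, by simpa using h⟩
    obtain ⟨D, hD1, hD2, hD3, hD4, hD5⟩ := exists_tuple X v q N hq hX hv h
    set U := univ.biUnion D
    have hUX : U ⊆ X := biUnion_subset.2 fun c _ => hD1 c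
    have hUne : U.Nonempty := by
      obtain ⟨a, ha⟩ := hD5 ⟨0, by omega⟩
      exact ⟨a, mem_biUnion.2 ⟨_, mem_univ _, ha⟩⟩
    obtain ⟨C, hC1, hC2, hC3, hC4, hC5⟩ := ih (X \ U) (sdiff_ssubset hUX hUne)
      ((card_le_card sdiff_subset).trans hX) (fun j a ha => hv j a (sdiff_subset ha))
    have hdis : ∀ c c', Disjoint (C c) (D c') := fun c c' =>
      disjoint_of_subset_left (hC1 c) (disjoint_of_subset_right
        (subset_biUnion_of_mem D (mem_univ c')) sdiff_disjoint)
    refine ⟨fun c => C c ∪ D c, fun c => union_subset ((hC1 c).trans sdiff_subset) (hD1 c),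
      fun c c' hne => ?_, fun c c' => ?_, fun j c c' => ?_, ?_⟩
    · rw [disjoint_union_left, disjoint_union_right, disjoint_union_right]
      exact ⟨⟨hC2 c c' hne, hdis c c'⟩, (hdis c' c).symm, hD2 c c' hne⟩
    · rw [card_union_of_disjoint (hdis c c), card_union_of_disjoint (hdis c' c'), hC3 c c', hD3 c c']
    · rw [sum_union (hdis c c), sum_union (hdis c' c'), hC4 j c c', hD4 j c c']
    · have h1 : U.card = ∑ c, (D c).card := card_biUnion fun c _ c' _ hne => hD2 c c' hne
      have h2 : (∑ c, (C c ∪ D c).card) = (∑ c, (C c).card) + ∑ c, (D c).card := by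
        rw [← sum_add_distrib]; exact sum_congr rfl fun c _ => card_union_of_disjoint (hdis c c)
      rw [card_sdiff_of_subset hUX] at hC5
      have := card_le_card hUX
      beta_reduce at hC5 ⊢
      rw [h2]
      omega

end Vale.Agent.P047
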