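import Vale.Agent.P047.Spectrum
import Vale.Agent.P047.EqualParts

/-!
A partition of most of a cube into labelled cells with equal high moments in every layer.
-/

namespace Vale.Agent.P047

open Finset

/-- The value `1` or `-1` of a bit, as an integer. -/
def zspin (b : Bool) : ℤ := if b then 1 else -1

/-- The sum of the coordinates. -/
def zsum {κ : Type*} [Fintype κ] (x : κ → Bool) : ℤ := ∑ i, zspin (x i)

/-- All coordinates negated. -/
def flipAll {κ : Type*} (x : κ → Bool) : κ → Bool := fun i => !(x i)

theorem zspin_cast (b : Bool) : ((zspin b : ℤ) : ℝ) = spin b := by cases b <;> simp [zspin, spin]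

theorem zsum_cast {κ : Type*} [Fintype κ] (x : κ → Bool) :
    ((zsum x : ℤ) : ℝ) = ∑ i, spin (x i) := by
  simp [zsum, zspin_cast]

@[simp] theorem flipAll_flipAll {κ : Type*} (x : κ → Bool) : flipAll (flipAll x) = x := by
  funext i; simp [flipAll]

theorem zsum_flipAll {κ : Type*} [Fintype κ] (x : κ → Bool) : zsum (flipAll x) = -zsum x := by
  rw [zsum, zsum, ← sum_neg_distrib]
  refine sum_congr rfl fun i _ => ?_
  cases h : x i <;> simp [flipAll, zspin, h]

theorem zsum_abs_le {κ : Type*} [Fintype κ] (x : κ → Bool) : |zsum x| ≤ Fintype.card κ := by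
  refine (abs_sum_le_sum_abs _ _).trans ?_
  have : ∀ b : Bool, |zspin b| = 1 := fun b => by cases b <;> simp [zspin]
  simp [this]

theorem chi_flipAll {κ : Type*} (S : Finset κ) (x : κ → Bool) :
    chi S (flipAll x) = (-1) ^ S.card * chi S x := by
  simp [chi, flipAll, prod_neg]

theorem sum_chi_eq_zero {κ : Type*} [Fintype κ] [DecidableEq κ] {U : Finset κ} (hU : U.Nonempty) :
    ∑ c : κ → Bool, chi U c = 0 := by
  have := cubeAvg_chi U
  rw [if_neg (nonempty_iff_ne_empty.1 hU), cubeAvg, div_eq_zero_iff] at this
  exact this.resolve_right (by positivity)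

/-- The monomial `chi U` of the label, times a function of the sum; zero off the cells. -/
noncomputable def cellFn {κ γ : Type*} [Fintype κ] (v : (κ → Bool) → Option (γ → Bool))
    (φ : ℤ → ℝ) (U : Finset γ) (x : κ → Bool) : ℝ :=
  (v x).elim 0 fun c => φ (zsum x) * chi U c

/-- What is used from the partition into cells. -/
structure CellMap (N k D : ℕ) (p : ℝ) where
  /-- The label of a point, `none` for the leftover points. -/
  v : (Fin N → Bool) → Option (Fin k → Bool)
  flip : ∀ x, (v (flipAll x)).isSome = (v x).isSome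
  spec : ∀ (φ : ℤ → ℝ) (U : Finset (Fin k)), U.Nonempty →
    cellFn v φ U ∈ Sp (Lim univ D True)
  rare : cubeAvg (fun x => if v x = none then (1 : ℝ) else 0) ≤ p

theorem exists_cellMap (N k D : ℕ) (hN : 0 < N) (hk : 0 < k) (p : ℝ)
    (hp : (2 * (64 * (2 ^ k) ^ 2 * (N + 1) ^ 2 *
      (((univ.filter fun S : Finset (Fin N) => S = ∅ ∨ D < S.card).card * (2 * N + 1) + 1) *
        (N + 2)) : ℕ) : ℝ) ≤ p * 2 ^ N) :
    Nonempty (CellMap N k D p) := by
  classical
  set i0 : Fin N := ⟨0, hN⟩
  let inH : (Fin N → Bool) → Prop := fun x => zsum x < 0 ∨ (zsum x = 0 ∧ x i0 = false)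
  have hflipH : ∀ x, inH (flipAll x) ↔ ¬ inH x := by
    intro x
    simp only [inH, zsum_flipAll, flipAll]
    rcases lt_trichotomy (zsum x) 0 with h | h | h
    · simp [h, ne_of_lt h]; omega
    · simp [h]
    · simp [h, ne_of_gt h, not_lt.2 h.le]
  set Sset := univ.filter fun S : Finset (Fin N) => S = ∅ ∨ D < S.card with hSset
  let J := Sset × (Icc (-(N : ℤ)) N)
  let val : J → (Fin N → Bool) → ℤ := fun j x =>
    if zsum x = (j.2 : ℤ) then ∏ i ∈ (j.1 : Finset (Fin N)), zspin (x i) else 0
  have hval : ∀ j, ∀ x ∈ univ.filter inH, |val j x| ≤ 1 := by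
    intro j x _
    simp only [val]
    split_ifs
    · rw [abs_prod]
      refine le_of_eq (prod_eq_one fun i _ => ?_)
      cases x i <;> simp [zspin]
    · simp
  have hq : 2 ≤ 2 ^ k := by
    calc 2 = 2 ^ 1 := by norm_num
      _ ≤ 2 ^ k := Nat.pow_le_pow_right (by norm_num) hk
  obtain ⟨C, hCsub, hCdisj, -, hCsum, hCcov⟩ := equal_parts (univ.filter inH) val (2 ^ k) N hq
    (by
      refine (card_le_univ _).trans (le_of_eq ?_)
      simp) hval
  have hJ : Fintype.card J = Sset.card * (2 * N + 1) := by
    have : (Icc (-(N : ℤ)) N).card = 2 * N + 1 := by simp; omega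
    simp [J, this]
  rw [hJ] at hCcov
  let e : Fin (2 ^ k) ≃ (Fin k → Bool) := (Fintype.equivFinOfCardEq (by simp)).symm
  let lab : (Fin N → Bool) → Option (Fin k → Bool) := fun x =>
    if h : ∃ c, x ∈ C c then some (e h.choose) else none
  have hlab : ∀ c x, x ∈ C c → lab x = some (e c) := by
    intro c x hx
    have h : ∃ c, x ∈ C c := ⟨c, hx⟩
    simp only [lab, dif_pos h, Option.some.injEq, e.injective.eq_iff]
    by_contra hne
    exact disjoint_left.1 (hCdisj _ _ hne) h.choose_spec hx
  let rep : (Fin N → Bool) → (Fin N → Bool) := fun x => if inH x then x else flipAll x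
  have hrep : ∀ x, rep (flipAll x) = rep x := by
    intro x
    by_cases h : inH x
    · simp [rep, h, hflipH]
    · simp [rep, h, hflipH]
  refine ⟨⟨fun x => lab (rep x), fun x => by rw [hrep], ?_, ?_⟩⟩
  · intro φ U hU
    refine mem_Sp_of_fhat fun S hS => ?_
    have hSmem : S ∈ Sset := by
      simp only [hSset, mem_filter, mem_univ, true_and]
      simp only [Lim, subset_univ, true_and, forall_const, not_and_or, not_le,
        not_nonempty_iff_eq_empty] at hS
      tauto
    rw [fhat, cubeAvg]
    refine div_eq_zero_iff.2 (Or.inl ?_)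
    set H := univ.filter inH with hH
    let Ψ : ℤ → ℝ := fun s => φ s + (-1) ^ S.card * φ (-s)
    have hsplit : ∑ x, cellFn (fun y => lab (rep y)) φ U x * chi S x
        = ∑ x ∈ H, (lab x).elim 0 fun c => Ψ (zsum x) * chi U c * chi S x := by
      rw [← sum_filter_add_sum_filter_not univ inH]
      have h2 : ∑ x ∈ univ.filter (fun x => ¬ inH x), cellFn (fun y => lab (rep y)) φ U x * chi S x
          = ∑ x ∈ H, cellFn (fun y => lab (rep y)) φ U (flipAll x) * chi S (flipAll x) := by
        refine sum_nbij' flipAll flipAll ?_ ?_ ?_ ?_ ?_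
        · intro x hx; simp_all [hflipH]
        · intro x hx; simp_all [hflipH]
        · intro x _; simp
        · intro x _; simp
        · intro x _; simp
      rw [h2, ← sum_add_distrib]
      refine sum_congr rfl fun x hx => ?_
      have hx' : inH x := (mem_filter.1 hx).2
      simp only [cellFn, hrep, zsum_flipAll, chi_flipAll]
      have : rep x = x := by simp [rep, hx']
      rw [this]
      cases lab x with
      | none => simp
      | some c => simp only [Option.elim_some, Ψ]; ring
    rw [hsplit]
    have hcover : ∑ x ∈ H, ((lab x).elim 0 fun c => Ψ (zsum x) * chi U c * chi S x)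
        = ∑ c, ∑ x ∈ C c, Ψ (zsum x) * chi U (e c) * chi S x := by
      have hd : ((univ : Finset (Fin (2 ^ k))) : Set (Fin (2 ^ k))).PairwiseDisjoint C :=
        fun c _ c' _ h => hCdisj c c' h
      rw [← sum_subset (s₁ := univ.biUnion C) (biUnion_subset.2 fun c _ => hCsub c)]
      · rw [sum_biUnion hd]
        refine sum_congr rfl fun c _ => sum_congr rfl fun x hx => ?_
        rw [hlab c x hx, Option.elim_some]
      · intro x _ hx
        have : lab x = none := by
          simp only [lab]; rw [dif_neg]
          rintro ⟨c, hc⟩; exact hx (mem_biUnion.2 ⟨c, mem_univ _, hc⟩)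
        simp [this]
    rw [hcover]
    have hconst : ∀ c c', ∑ x ∈ C c, Ψ (zsum x) * chi S x = ∑ x ∈ C c', Ψ (zsum x) * chi S x := by
      have key : ∀ c, ∑ x ∈ C c, Ψ (zsum x) * chi S x
          = ∑ t : Icc (-(N : ℤ)) N, Ψ t * ((∑ x ∈ C c, val (⟨S, hSmem⟩, t) x : ℤ) : ℝ) := by
        intro c
        push_cast
        simp only [mul_sum]
        rw [sum_comm]
        refine sum_congr rfl fun x _ => ?_
        have hz : zsum x ∈ Icc (-(N : ℤ)) N := by
          have := zsum_abs_le x; rw [Fintype.card_fin, abs_le] at this; simpa using this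
        rw [sum_eq_single (⟨zsum x, hz⟩ : Icc (-(N : ℤ)) N)]
        · simp only [val, if_true]
          push_cast
          simp [chi, zspin_cast]
        · intro t _ ht
          have : zsum x ≠ (t : ℤ) := fun h => ht (Subtype.ext h.symm)
          simp [val, this]
        · simp
      intro c c'
      rw [key, key]
      exact sum_congr rfl fun t _ => by rw [hCsum (⟨S, hSmem⟩, t) c c']
    have c0 : Fin (2 ^ k) := ⟨0, by positivity⟩
    calc ∑ c, ∑ x ∈ C c, Ψ (zsum x) * chi U (e c) * chi S x
        = ∑ c, chi U (e c) * ∑ x ∈ C c0, Ψ (zsum x) * chi S x := by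
          refine sum_congr rfl fun c _ => ?_
          rw [← hconst c c0, mul_sum]; exact sum_congr rfl fun x _ => by ring
      _ = (∑ c, chi U c) * ∑ x ∈ C c0, Ψ (zsum x) * chi S x := by
          rw [← sum_mul, e.sum_comp (fun c => chi U c)]
      _ = 0 := by rw [sum_chi_eq_zero hU, zero_mul]
  · set H := univ.filter inH
    set L := H \ univ.biUnion C with hL
    have hLcard : L.card < 64 * (2 ^ k) ^ 2 * (N + 1) ^ 2 *
        ((Sset.card * (2 * N + 1) + 1) * (N + 2)) := by
      rw [hL, card_sdiff_of_subset (biUnion_subset.2 fun c _ => hCsub c),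
        card_biUnion fun c _ c' _ h => hCdisj c c' h]
      have hpos : 0 < 64 * (2 ^ k) ^ 2 * (N + 1) ^ 2 *
          ((Sset.card * (2 * N + 1) + 1) * (N + 2)) := by positivity
      omega
    have hnone : (univ.filter fun x => lab (rep x) = none) ⊆ L ∪ L.image flipAll := by
      intro x hx
      have hx' := (mem_filter.1 hx).2
      have hr : rep x ∈ L := by
        refine mem_sdiff.2 ⟨?_, fun hm => ?_⟩
        · by_cases h : inH x <;> simp [H, rep, h, hflipH]
        · obtain ⟨c, -, hc⟩ := mem_biUnion.1 hm
          rw [hlab c _ hc] at hx'; exact Option.some_ne_none _ hx'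
      by_cases h : inH x
      · exact mem_union_left _ (by simpa [rep, h] using hr)
      · refine mem_union_right _ (mem_image.2 ⟨rep x, hr, by simp [rep, h]⟩)
    have hcard : (univ.filter fun x => lab (rep x) = none).card ≤
        2 * (64 * (2 ^ k) ^ 2 * (N + 1) ^ 2 * ((Sset.card * (2 * N + 1) + 1) * (N + 2))) := by
      refine (card_le_card hnone).trans ((card_union_le _ _).trans ?_)
      have := card_image_le (s := L) (f := flipAll)
      omega
    rw [cubeAvg, sum_boole, Fintype.card_fin, div_le_iff₀ (by positivity)]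
    exact le_trans (by exact_mod_cast hcard) hp

end Vale.Agent.P047
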