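import Mathlib

/-!
# A random binary code has no heavy vanishing set

Rows indexed by `Fin l` inside `τ × Fin k`; every nonempty parity combination of rows vanishes
identically on fewer than `z` slots.
-/

namespace Vale.Agent.P047

open Finset

/-- Matrices whose combination `u` vanishes on all slots of `A`. -/
lemma card_vanishing {τ : Type*} [Fintype τ] [DecidableEq τ] (k l : ℕ) (u : Finset (Fin l))
    (hu : u.Nonempty) (A : Finset τ) :
    (univ.filter fun M : Fin l → τ × Fin k → ZMod 2 =>
        ∀ t ∈ A, ∀ c, ∑ i ∈ u, M i (t, c) = 0).card * 2 ^ (k * A.card) ≤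
      Fintype.card (Fin l → τ × Fin k → ZMod 2) := by
  obtain ⟨i₀, hi₀⟩ := hu
  set B := univ.filter fun M : Fin l → τ × Fin k → ZMod 2 =>
    ∀ t ∈ A, ∀ c, ∑ i ∈ u, M i (t, c) = 0
  let shift : (Fin l → τ × Fin k → ZMod 2) × (A × Fin k → ZMod 2) →
      Fin l → τ × Fin k → ZMod 2 := fun q i p =>
    q.1 i p + if h : i = i₀ ∧ p.1 ∈ A then q.2 (⟨p.1, h.2⟩, p.2) else 0
  have hinj : Set.InjOn shift ((B ×ˢ (univ : Finset (A × Fin k → ZMod 2)) :) : Set _) := by
    intro q hq q' hq' he
    simp only [coe_product, Set.mem_prod, Finset.mem_coe] at hq hq'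
    have hB := (mem_filter.1 hq.1).2
    have hB' := (mem_filter.1 hq'.1).2
    have key : ∀ (r : (Fin l → τ × Fin k → ZMod 2) × (A × Fin k → ZMod 2)) (t : A) (c : Fin k),
        (∀ t ∈ A, ∀ c, ∑ i ∈ u, r.1 i (t, c) = 0) → ∑ i ∈ u, shift r i (t.1, c) = r.2 (t, c) := by
      intro r t c hr
      simp only [shift, sum_add_distrib, hr t.1 t.2 c, zero_add]
      rw [sum_eq_single i₀]
      · simp
      · intro i _ hi; simp [hi]
      · exact fun h => absurd hi₀ h
    have h2 : q.2 = q'.2 := by
      funext p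
      rw [← key q p.1 p.2 hB, ← key q' p.1 p.2 hB', he]
    have h1 : q.1 = q'.1 := by
      funext i p
      have := congrFun (congrFun he i) p
      simp only [shift, h2] at this
      exact add_right_cancel this
    exact Prod.ext h1 h2
  have := card_le_card_of_injOn shift (t := univ) (fun _ _ => by simp) hinj
  simpa [mul_comm k, Fintype.card_pi, pow_mul, ← pow_mul] using this

/-- There are rows such that every nonempty combination vanishes on fewer than `z` slots. -/
theorem exists_code {τ : Type*} [Fintype τ] [DecidableEq τ] (k l z : ℕ)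
    (h : 2 ^ (l + Fintype.card τ) ≤ 2 ^ (k * z)) :
    ∃ R : Fin l → Finset (τ × Fin k), ∀ u : Finset (Fin l), u.Nonempty →
      (univ.filter fun t : τ => ∀ c, Even (u.filter fun i => (t, c) ∈ R i).card).card < z := by
  set Ω := Fintype.card (Fin l → τ × Fin k → ZMod 2)
  set I := ((univ : Finset (Fin l)).powerset.erase ∅) ×ˢ (univ : Finset τ).powersetCard z
  set bad := I.biUnion fun q => univ.filter fun M : Fin l → τ × Fin k → ZMod 2 =>
    ∀ t ∈ q.2, ∀ c, ∑ i ∈ q.1, M i (t, c) = 0
  have hI : I.card < 2 ^ (l + Fintype.card τ) := by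
    rw [card_product, card_powersetCard, card_erase_of_mem (by simp), card_powerset, card_univ,
      card_univ, Fintype.card_fin, pow_add]
    calc (2 ^ l - 1) * (Fintype.card τ).choose z ≤ (2 ^ l - 1) * 2 ^ Fintype.card τ :=
          Nat.mul_le_mul_left _ (Nat.choose_le_two_pow _ _)
      _ < 2 ^ l * 2 ^ Fintype.card τ :=
          Nat.mul_lt_mul_of_lt_of_le (Nat.sub_lt (Nat.two_pow_pos l) one_pos) le_rfl
            (Nat.two_pow_pos _)
  have hΩ : 0 < Ω := Fintype.card_pos
  have hbad : bad.card * 2 ^ (k * z) < Ω * 2 ^ (k * z) := by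
    calc bad.card * 2 ^ (k * z) ≤ ∑ q ∈ I, (univ.filter fun M : Fin l → τ × Fin k → ZMod 2 =>
          ∀ t ∈ q.2, ∀ c, ∑ i ∈ q.1, M i (t, c) = 0).card * 2 ^ (k * z) := by
          rw [← sum_mul]; exact Nat.mul_le_mul_right _ card_biUnion_le
      _ ≤ ∑ _q ∈ I, Ω := by
          refine sum_le_sum fun q hq => ?_
          simp only [I, mem_product, mem_erase, mem_powersetCard] at hq
          rw [← hq.2.2]
          exact card_vanishing k l q.1 (nonempty_iff_ne_empty.2 hq.1.1) q.2
      _ = I.card * Ω := by simp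
      _ < 2 ^ (k * z) * Ω := Nat.mul_lt_mul_of_pos_right (lt_of_lt_of_le hI h) hΩ
      _ = _ := mul_comm _ _
  obtain ⟨M, hM⟩ : ∃ M, M ∉ bad := by
    by_contra hall
    push Not at hall
    have : bad = univ := eq_univ_of_forall hall
    rw [this, card_univ] at hbad
    exact lt_irrefl _ hbad
  refine ⟨fun i => univ.filter fun p => M i p = 1, fun u hu => ?_⟩
  by_contra hz
  rw [not_lt] at hz
  obtain ⟨A, hA, hAc⟩ := exists_subset_card_eq hz
  refine hM (mem_biUnion.2 ⟨(u, A), ?_, ?_⟩)
  · simp only [I, mem_product, mem_erase, mem_powersetCard]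
    exact ⟨⟨hu.ne_empty, by simp⟩, subset_univ _, hAc⟩
  · refine mem_filter.2 ⟨mem_univ _, fun t ht c => ?_⟩
    have he := (mem_filter.1 (hA ht)).2 c
    have h01 : ∀ x : ZMod 2, x = if x = 1 then 1 else 0 := by decide
    simp only [mem_filter, mem_univ, true_and] at he
    rw [sum_congr rfl fun i _ => h01 (M i (t, c)), sum_boole, ZMod.natCast_eq_zero_iff_even]
    exact he

end Vale.Agent.P047
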