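import Mathlib

/-!
Basic notions for the cube `{-1,1}^ι`, written with Boolean coordinates.
-/

namespace Vale.Agent.P047

open Finset

/-- The value `1` or `-1` of a bit. -/
noncomputable def spin (b : Bool) : ℝ := if b then 1 else -1

/-- The monomial `∏_{i∈S} x_i`. -/
noncomputable def chi {ι : Type*} (S : Finset ι) (x : ι → Bool) : ℝ := ∏ i ∈ S, spin (x i)

/-- The uniform average on the cube. -/
noncomputable def cubeAvg {ι : Type*} [Fintype ι] [DecidableEq ι] (f : (ι → Bool) → ℝ) : ℝ :=
  (∑ x, f x) / 2 ^ Fintype.card ι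

/-- The Fourier coefficient `𝔼[f(X) ∏_{i∈S} X_i]`. -/
noncomputable def fhat {ι : Type*} [Fintype ι] [DecidableEq ι] (f : (ι → Bool) → ℝ)
    (S : Finset ι) : ℝ :=
  cubeAvg fun x => f x * chi S x

/-- The largest size of a monomial with nonzero coefficient (zero for constants). -/
noncomputable def degree {ι : Type*} [Fintype ι] [DecidableEq ι] (f : (ι → Bool) → ℝ) : ℕ :=
  (univ.filter fun S : Finset ι => fhat f S ≠ 0).sup Finset.card

/-- The sum of the linear coefficients. -/
noncomputable def linSum {ι : Type*} [Fintype ι] [DecidableEq ι] (f : (ι → Bool) → ℝ) : ℝ :=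
  ∑ i, fhat f {i}

/-- The function takes only the values `1` and `-1`. -/
def IsBool {ι : Type*} (f : (ι → Bool) → ℝ) : Prop := ∀ x, f x = 1 ∨ f x = -1

end Vale.Agent.P047
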