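import Vale.Agent.P047.Params

/-!
A Boolean function whose linear sum exceeds the square root of its degree.
-/

namespace Vale.Agent.P047

open Finset

theorem binom_bound (n a d T : ℕ) (h : 16 * n ≤ T * 2 ^ a) (hd : 4 * (a * d) ≤ T) (hT : 64 ≤ T) :
    ((∑ i ∈ range (d + 1), n.choose i : ℕ) : ℝ) ≤ 1 / 1000 * 2 ^ T := by
  set M : ℝ := 2 ^ a with hM
  have hM0 : 0 < M := by positivity
  have h1 : ((∑ i ∈ range (d + 1), n.choose i : ℕ) : ℝ) ≤ M ^ d * (1 + 1 / M) ^ n := by
    have hx1 : (1 : ℝ) / M ≤ 1 := by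
      rw [div_le_one hM0, hM]; exact one_le_pow₀ (by norm_num)
    push_cast
    rcases le_or_gt d n with hdn | hdn
    · calc ∑ i ∈ range (d + 1), (n.choose i : ℝ)
          ≤ ∑ i ∈ range (d + 1), M ^ d * ((1 / M) ^ i * (n.choose i : ℝ)) := by
            refine sum_le_sum fun i hi => ?_
            have hi' : i ≤ d := by have := mem_range.1 hi; omega
            have : (1 : ℝ) ≤ M ^ d * (1 / M) ^ i := by
              rw [div_pow, one_pow, mul_one_div, one_le_div₀ (by positivity)]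
              exact pow_le_pow_right₀ (by rw [hM]; exact one_le_pow₀ (by norm_num)) hi'
            rw [← mul_assoc]
            exact le_mul_of_one_le_left (by positivity) this
        _ ≤ ∑ i ∈ range (n + 1), M ^ d * ((1 / M) ^ i * (n.choose i : ℝ)) :=
            sum_le_sum_of_subset_of_nonneg (range_subset_range.2 (by omega))
              (fun i _ _ => by positivity)
        _ = M ^ d * (1 + 1 / M) ^ n := by
            rw [← mul_sum, add_comm (1 : ℝ) (1 / M), add_pow]
            simp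
    · calc ∑ i ∈ range (d + 1), (n.choose i : ℝ) = 2 ^ n := by
            rw [← sum_subset (s₁ := range (n + 1)) (range_subset_range.2 (by omega))]
            · exact_mod_cast Nat.sum_range_choose n
            · intro i _ hi
              simp only [mem_range, not_lt] at hi
              simp [Nat.choose_eq_zero_of_lt (by omega : n < i)]
        _ ≤ M ^ d * (1 + 1 / M) ^ n := by
            have hM1 : (1 : ℝ) ≤ M := by rw [hM]; exact one_le_pow₀ (by norm_num)
            calc (2 : ℝ) ^ n ≤ (M * (1 + 1 / M)) ^ n := by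
                  refine pow_le_pow_left₀ (by norm_num) ?_ n
                  rw [mul_add, mul_one_div_cancel hM0.ne']; linarith
              _ = M ^ n * (1 + 1 / M) ^ n := mul_pow _ _ _
              _ ≤ _ := mul_le_mul_of_nonneg_right (pow_le_pow_right₀ hM1 hdn.le) (by positivity)
  set j := T / 16 + 1
  have h2 : (1 + 1 / M) ^ n ≤ (4 : ℝ) ^ j := by
    have hn : (n : ℝ) ≤ j * M := by
      have : n ≤ j * 2 ^ a := by
        have : T ≤ 16 * j := by omega
        nlinarith [Nat.mul_le_mul_right (2 ^ a) this]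
      rw [hM]; exact_mod_cast this
    calc (1 + 1 / M) ^ n ≤ Real.exp (1 / M) ^ n :=
          pow_le_pow_left₀ (by positivity) (by rw [add_comm]; exact Real.add_one_le_exp _) n
      _ = Real.exp ((n : ℝ) * (1 / M)) := (Real.exp_nat_mul _ n).symm
      _ ≤ Real.exp ((j : ℝ) * 1) := by
          refine Real.exp_le_exp.2 ?_
          rw [mul_one_div, mul_one, div_le_iff₀ hM0]; exact hn
      _ = Real.exp 1 ^ j := Real.exp_nat_mul _ j
      _ ≤ (4 : ℝ) ^ j :=
          pow_le_pow_left₀ (Real.exp_nonneg _) (by linarith [Real.exp_one_lt_d9]) j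
  calc ((∑ i ∈ range (d + 1), n.choose i : ℕ) : ℝ) ≤ M ^ d * (1 + 1 / M) ^ n := h1
    _ ≤ M ^ d * (4 : ℝ) ^ j := mul_le_mul_of_nonneg_left h2 (by positivity)
    _ = 2 ^ (a * d + 2 * j) := by
        rw [hM, ← pow_mul, show (4 : ℝ) = 2 ^ 2 by norm_num, ← pow_mul, ← pow_add]
    _ ≤ 2 ^ (T - 10) := pow_le_pow_right₀ (by norm_num) (by omega)
    _ ≤ 1 / 1000 * 2 ^ T := by
        have : (2 : ℝ) ^ T = 2 ^ (T - 10) * 2 ^ 10 := by rw [← pow_add]; congr 1; omega
        rw [this]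
        have : (0 : ℝ) < 2 ^ (T - 10) := by positivity
        linarith

/-- Comparing the linear sum with the counted sum. -/
theorem linSum_lower {ι : Type*} [Fintype ι] [DecidableEq ι] (f X Y Z q : (ι → Bool) → ℝ)
    (a c : ℝ) (ha : 0 ≤ a) (hf : IsBool f) (hsum : ∀ ω, ∑ i, spin (ω i) = X ω + Y ω)
    (hcor : cubeAvg (fun ω => f ω * Z ω) = cubeAvg (fun ω => Z ω * q ω))
    (hq : ∀ ω, a * |Z ω| - c ≤ Z ω * q ω) :
    a * (cubeAvg (fun ω => |X ω|) - cubeAvg (fun ω => |X ω - Z ω|)) - c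
      - cubeAvg (fun ω => |X ω - Z ω|) - cubeAvg (fun ω => |Y ω|) ≤ linSum f := by
  rw [linSum_eq]
  have h1 : cubeAvg (fun ω => f ω * Z ω) + cubeAvg (fun ω => f ω * (X ω - Z ω + Y ω))
      = cubeAvg (fun ω => f ω * ∑ i, spin (ω i)) := by
    rw [← cubeAvg_add]
    congr 1
    funext ω
    simp only [Pi.add_apply, hsum]; ring
  have h2 : -(cubeAvg (fun ω => |X ω - Z ω|) + cubeAvg (fun ω => |Y ω|))
      ≤ cubeAvg (fun ω => f ω * (X ω - Z ω + Y ω)) := by
    rw [← cubeAvg_add, ← neg_one_mul, ← cubeAvg_smul]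
    refine cubeAvg_le fun ω => ?_
    simp only [Pi.smul_apply, Pi.add_apply, smul_eq_mul]
    rcases hf ω with h | h <;> rw [h] <;>
      linarith [le_abs_self (X ω - Z ω), neg_abs_le (X ω - Z ω), le_abs_self (Y ω),
        neg_abs_le (Y ω)]
  have h3 : a * (cubeAvg (fun ω => |X ω|) - cubeAvg (fun ω => |X ω - Z ω|)) - c
      ≤ cubeAvg (fun ω => Z ω * q ω) := by
    refine le_trans (le_of_eq ?_) (cubeAvg_le (f := fun ω => a * (|X ω| - |X ω - Z ω|) - c)
      fun ω => le_trans ?_ (hq ω))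
    · simp only [cubeAvg, sum_sub_distrib, ← mul_sum, sub_div, mul_div_assoc, sum_const, card_univ,
        Fintype.card_fun, Fintype.card_bool, nsmul_eq_mul, Nat.cast_pow, Nat.cast_ofNat]
      field_simp
    · have := abs_add_le (X ω - Z ω) (Z ω)
      rw [sub_add_cancel] at this
      have := mul_le_mul_of_nonneg_left this ha
      linarith
  linarith

/-- The first absolute moment of a long walk, in the form used below. -/
theorem walk_numeric {ι : Type*} [Fintype ι] [DecidableEq ι] (Γ : Finset ι) (M : ℕ)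
    (h : Γ.card = 2 * M) (hM : 1000 ≤ M) :
    0.796 * Real.sqrt (2 * M) ≤ cubeAvg (fun x : ι → Bool => |∑ i ∈ Γ, spin (x i)|) := by
  refine le_trans ?_ (walk_lower Γ M h)
  have hM1 : (1000 : ℝ) ≤ M := by exact_mod_cast hM
  rw [le_div_iff₀ (Real.sqrt_pos.2 (by positivity)), mul_assoc, ← Real.sqrt_mul (by positivity)]
  have hr : Real.sqrt (2 * M * (Real.pi * (M + 1 / 2))) ≤ 2 * M / 0.796 := by
    refine (Real.sqrt_le_left (by positivity)).2 ?_
    rw [div_pow, le_div_iff₀ (by norm_num)]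
    have := Real.pi_lt_d4
    nlinarith [mul_le_mul_of_nonneg_left this.le
      (show (0 : ℝ) ≤ 2 * M * (M + 1 / 2) * 0.796 ^ 2 by positivity)]
  have := (le_div_iff₀ (by norm_num : (0 : ℝ) < 0.796)).1 hr
  linarith

/-- The degree bound, in the form used below. -/
theorem degree_numeric (u m : ℕ) (hu : 2000000000 ≤ u) (hm : 1 ≤ m) (z : ℕ) (hz : z ≤ 2 * m) :
    ((m * (20 * u + 1000 * 2000 + 1000 * (11 * u)) + 9 * u * z : ℕ) : ℝ) + 1
      ≤ 0.554 * ((m : ℝ) * 1000 * (20 * u)) := by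
  have hu' : (2000000000 : ℝ) ≤ u := by exact_mod_cast hu
  have hm1 : (1 : ℝ) ≤ m := by exact_mod_cast hm
  have hz' : (z : ℝ) ≤ 2 * m := by exact_mod_cast hz
  have h9 := mul_le_mul_of_nonneg_left hz' (show (0 : ℝ) ≤ 9 * u by positivity)
  have h11 : 0 ≤ (m : ℝ) * ((u : ℝ) - 2000000000) := mul_nonneg (by linarith) (by linarith)
  push_cast
  linarith

/-- The approximation error, in the form used below. -/
theorem band_numeric (T K N d : ℕ) (hT : T = d * K) (hd : d = 400000000 * (K * N) + 3) :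
    20 * ((T * N : ℕ) : ℝ) / d ≤ Real.sqrt ((T : ℝ) * N) / 1000 := by
  have hdpos : (0 : ℝ) < d := by exact_mod_cast (by omega : 0 < d)
  have hKN : ((T * N : ℕ) : ℝ) / d = (K : ℝ) * N := by
    rw [hT]; push_cast; field_simp
  rw [mul_div_assoc, hKN]
  have hbig : 400000000 * ((K : ℝ) * N) ≤ d := by rw [hd]; push_cast; linarith
  have h : 20000 * ((K : ℝ) * N) ≤ Real.sqrt ((T : ℝ) * N) := by
    refine Real.le_sqrt_of_sq_le ?_
    rw [hT]
    push_cast
    nlinarith [mul_le_mul_of_nonneg_right hbig (show (0 : ℝ) ≤ (K : ℝ) * N by positivity)]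
  linarith

/-- There is a Boolean function with linear sum well above the root of its degree. -/
theorem exists_gadget : ∃ (ι : Type) (_ : Fintype ι) (_ : DecidableEq ι) (f : (ι → Bool) → ℝ)
    (D : ℕ), IsBool f ∧ degree f ≤ D ∧ Real.sqrt ((D : ℝ) + 1) + 1 < linSum f := by
  classical
  obtain ⟨k, hk⟩ : ∃ k : ℕ, k = 2000 := ⟨_, rfl⟩
  obtain ⟨G, hG⟩ : ∃ G : ℕ, G = 1000 := ⟨_, rfl⟩
  obtain ⟨u, hu, hu1, hsmall⟩ := exists_u k G 2000000000 (1 / 1000000) (by norm_num)
  set p : ℝ := ((2 * (64 * (2 ^ k) ^ 2 * (20 * u + 1) ^ 2 *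
    (((univ.filter fun S : Finset (Fin (20 * u)) => S = ∅ ∨ 11 * u < S.card).card *
      (2 * (20 * u) + 1) + 1) * (20 * u + 2))) : ℕ) : ℝ) / 2 ^ (20 * u) with hp
  obtain ⟨cm⟩ := exists_cellMap (20 * u) k (11 * u) (by omega) (by omega) p
    (le_of_eq (by rw [hp, div_mul_cancel₀ _ (by positivity)]; push_cast; ring))
  clear_value p
  clear hp
  obtain ⟨N, hN⟩ : ∃ N : ℕ, N = 20 * u := ⟨_, rfl⟩
  rw [← hN] at cm hsmall
  obtain ⟨K, hK⟩ : ∃ K : ℕ, K = G * (N + 8) := ⟨_, rfl⟩
  obtain ⟨d, hd⟩ : ∃ d : ℕ, d = 400000000 * (K * N) + 3 := ⟨_, rfl⟩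
  obtain ⟨m, hm⟩ : ∃ m : ℕ, m = d * (N + 8) := ⟨_, rfl⟩
  have hT : m * G = d * K := by rw [hm, hK]; ring
  obtain ⟨T, hTdef⟩ : ∃ T : ℕ, T = m * G := ⟨_, rfl⟩
  have hd3 : 3 ≤ d := by omega
  have hT1000 : 1000 ≤ T := by
    rw [hTdef, hm, hG]
    have h1 : 1 * 1 ≤ d * (N + 8) := Nat.mul_le_mul (by omega) (by omega)
    omega
  have hcardT : Fintype.card (Fin m × Fin G) = T := by simp [hTdef]
  obtain ⟨R, hR⟩ := exists_code (τ := Fin m × Fin G) k T (T / 1000 + 1) (by
    rw [hcardT, hk]; exact Nat.pow_le_pow_right (by norm_num) (by omega))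
  obtain ⟨W, P, hP, hW⟩ := quantised_sign (T * N) d T (1 / 1000) hd3 (by norm_num) (by norm_num) (by
    refine binom_bound _ (N + 8) d T ?_ ?_ (by omega)
    · have h1 : N + 8 < 2 ^ (N + 8) := Nat.lt_two_pow_self
      have h2 : 32 * N ≤ 2 ^ (N + 8) := by
        have : N < 2 ^ N := Nat.lt_two_pow_self
        rw [pow_add]; omega
      calc 16 * (2 * (T * N)) = T * (32 * N) := by ring
        _ ≤ T * 2 ^ (N + 8) := Nat.mul_le_mul_left T h2
    · have h1 : (N + 8) * d = m := by rw [hm, mul_comm]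
      rw [hTdef, h1, hG]; omega)
  have hD : 11 * u ≤ N := by omega
  obtain ⟨B, hB⟩ : ∃ B : ℕ,
      B = m * (N + G * k + G * (11 * u)) + (N - 11 * u) * (T / 1000 + 1) := ⟨_, rfl⟩
  have hB1 : d * (N + G * k + G * N) ≤ B := by
    have h1 : N + G * k + G * N ≤ (N + 8) * (G * (11 * u)) := by
      rw [hG, hk]
      have h2 : 8 * (1000 * (11 * u)) ≤ (N + 8) * (1000 * (11 * u)) :=
        Nat.mul_le_mul_right _ (by omega)
      omega
    have h3 := Nat.mul_le_mul_left d h1
    have h4 : d * ((N + 8) * (G * (11 * u))) = m * (G * (11 * u)) := by rw [hm]; ring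
    rw [hB, Nat.mul_add m]
    omega
  obtain ⟨hdeg, hcor⟩ := hashFn_spec cm.v cm.spec hD R (T / 1000 + 1) hR (by omega) W P d hP
    (fun s hs => by
      obtain ⟨a, b, c, -⟩ := hW s (by rwa [← hTdef] at hs)
      exact ⟨a, b, c⟩) B hB1 (le_of_eq hB.symm)
  set f := hashFn (m := m) (G := G) cm.v R W with hf
  have hfB : IsBool f := fun ω => by
    rw [hf, hashFn]; split_ifs
    · exact Or.inl rfl
    · exact Or.inr rfl
  refine ⟨_, inferInstance, inferInstance, f, B, hfB, hdeg, ?_⟩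
  -- the total sum, split
  set Xs : (Coord (Fin m × Fin G) N k → Bool) → ℝ := fun ω =>
    ∑ t : Fin m × Fin G, (zsum (xs t ω) : ℝ) with hXs
  set Ys : (Coord (Fin m × Fin G) N k → Bool) → ℝ := fun ω =>
    ∑ i ∈ (univ : Finset (Fin m × Fin G)) ×ˢ ((univ : Finset (Fin k)).map ⟨Sum.inr, Sum.inr_injective⟩),
      spin (ω i) with hYs
  set Z : (Coord (Fin m × Fin G) N k → Bool) → ℝ := fun ω => (total cm.v ω : ℝ) with hZ
  set σ := Real.sqrt ((T : ℝ) * N) with hσ
  set ΓX : Finset (Coord (Fin m × Fin G) N k) :=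
    (univ : Finset (Fin m × Fin G)) ×ˢ ((univ : Finset (Fin N)).map ⟨Sum.inl, Sum.inl_injective⟩)
  have hsumX : ∀ ω, Xs ω = ∑ i ∈ ΓX, spin (ω i) := by
    intro ω
    simp [hXs, ΓX, sum_product, zsum_cast, xs]
  have hall : ∀ ω, ∑ i, spin (ω i) = Xs ω + Ys ω := by
    intro ω
    simp [hXs, hYs, sum_product, zsum_cast, xs, Fintype.sum_prod_type, sum_add_distrib]
  have hTN : (0 : ℝ) < (T : ℝ) * N := by
    have : (0 : ℝ) < T := by exact_mod_cast (by omega : 0 < T)
    have : (0 : ℝ) < N := by exact_mod_cast (by omega : 0 < N)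
    positivity
  have hσ2 : σ ^ 2 = (T : ℝ) * N := Real.sq_sqrt hTN.le
  have hσ0 : 0 < σ := Real.sqrt_pos.2 hTN
  -- the missed part and the pads
  have hDx : cubeAvg (fun ω => |Xs ω - Z ω|) ≤ σ / 1000 := by
    refine (abs_le_of_sq_le_sq' ?_ (by positivity)).2
    refine (cubeAvg_abs_sq _).trans ?_
    have h := missed_sq_le (m := m) (G := G) cm.v cm.flip p cm.rare
    simp only [← total_add_missed] at h
    refine h.trans ?_
    rw [div_pow, hσ2, hTdef]
    push_cast
    have h1 : (N : ℝ) * G * p ≤ 1 / 1000000 := hsmall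
    calc (m : ℝ) * G * (N ^ 2 * (G * p)) = (m * G * N) * (N * G * p) := by ring
      _ ≤ (m * G * N) * (1 / 1000000) := mul_le_mul_of_nonneg_left h1 (by positivity)
      _ = _ := by ring
  have hY : cubeAvg (fun ω => |Ys ω|) ≤ σ / 1000 := by
    refine (abs_le_of_sq_le_sq' ?_ (by positivity)).2
    refine (cubeAvg_abs_sq _).trans ?_
    rw [hYs, cubeAvg_sq_spins, card_product, card_map, card_univ, card_univ, hcardT,
      Fintype.card_fin, div_pow, hσ2]
    have h1 : (1000000 : ℝ) * k ≤ N := by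
      rw [hk]; exact_mod_cast (by omega : 1000000 * 2000 ≤ N)
    push_cast
    nlinarith [mul_le_mul_of_nonneg_left h1 (Nat.cast_nonneg T : (0 : ℝ) ≤ T)]
  have hX : 0.796 * σ ≤ cubeAvg (fun ω => |Xs ω|) := by
    have hcard : ΓX.card = 2 * (T * (10 * u)) := by
      simp only [ΓX, card_product, card_map, card_univ, hcardT, Fintype.card_fin]
      rw [hN]; ring
    have h := walk_numeric ΓX (T * (10 * u)) hcard
      (le_trans (by omega) (Nat.mul_le_mul hT1000 (by omega : 1 ≤ 10 * u)))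
    simp only [← hsumX] at h
    refine le_trans (le_of_eq ?_) h
    rw [hσ, hN]; push_cast; ring_nf
  -- the linear sum
  have hlin : (997 / 1000) * (cubeAvg (fun ω => |Xs ω|) - cubeAvg (fun ω => |Xs ω - Z ω|))
      - 20 * ((T * N : ℕ) : ℝ) / d - cubeAvg (fun ω => |Xs ω - Z ω|) - cubeAvg (fun ω => |Ys ω|)
      ≤ linSum f := by
    exact linSum_lower f Xs Ys Z (fun ω => 2 * (W (total cm.v ω) : ℝ) / 2 ^ T - 1) (997 / 1000)
      (20 * ((T * N : ℕ) : ℝ) / d) (by norm_num) hfB hall hcor fun ω => by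
      obtain ⟨-, -, -, h⟩ := hW (total cm.v ω) (by rw [hTdef]; exact total_abs_le cm.v ω)
      simp only [hZ]
      linarith
  have hband : 20 * ((T * N : ℕ) : ℝ) / d ≤ σ / 1000 :=
    band_numeric T K N d (hTdef.trans hT) hd
  have hBb : (B : ℝ) + 1 ≤ 0.554 * σ ^ 2 := by
    have hm1 : 1 ≤ m := by
      have h1 : 1 * 1 ≤ d * (N + 8) := Nat.mul_le_mul (by omega) (by omega)
      omega
    have hB' : B = m * (20 * u + 1000 * 2000 + 1000 * (11 * u)) + 9 * u * (T / 1000 + 1) := by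
      rw [hB, hG, hk, hN, show 20 * u - 11 * u = 9 * u by omega]
    rw [hσ2, hB']
    refine le_trans (degree_numeric u m hu hm1 _ (by rw [hTdef, hG]; omega)) (le_of_eq ?_)
    rw [hTdef, hG, hN]; push_cast; ring
  have hs : Real.sqrt ((B : ℝ) + 1) ≤ 0.745 * σ := by
    refine (Real.sqrt_le_left (by positivity)).2 (le_trans hBb ?_)
    nlinarith
  have hσbig : 1000 ≤ σ := by
    refine Real.le_sqrt_of_sq_le ?_
    have h1 : (1000 : ℝ) ≤ T := by exact_mod_cast hT1000
    have h2 : (1000 : ℝ) ≤ N := by exact_mod_cast (by omega : 1000 ≤ N)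
    nlinarith
  linarith

end Vale.Agent.P047
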