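import Vale.Agent.P047.Cells

/-!
Slots, groups of slots read up to the first leftover block, and sums over groups.
-/

namespace Vale.Agent.P047

open Finset

theorem comp_mem_Sp {κ ι : Type*} [DecidableEq ι] (e : κ ↪ ι) {Γ : Finset κ} {b : ℕ} {ne : Prop}
    {f : (κ → Bool) → ℝ} (hf : f ∈ Sp (Lim Γ b ne)) :
    (fun ω : ι → Bool => f fun i => ω (e i)) ∈ Sp (Lim (Γ.map e) b ne) := by
  induction hf using Submodule.span_induction with
  | mem g hg =>
    obtain ⟨S, hS, rfl⟩ := hg
    have : (fun ω : ι → Bool => chi S fun i => ω (e i)) = chi (S.map e) := by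
      funext ω; simp [chi]
    rw [this]
    exact chi_mem ⟨map_subset_map.2 hS.1, by simpa using hS.2.1,
      fun h => (hS.2.2 h).map⟩
  | zero => exact Submodule.zero_mem _
  | add g h _ _ h1 h2 => exact Submodule.add_mem _ h1 h2
  | smul a g _ h1 => exact Submodule.smul_mem _ a h1

theorem any_mem_Sp {κ : Type*} [Fintype κ] [DecidableEq κ] (f : (κ → Bool) → ℝ) :
    f ∈ Sp (Lim univ (Fintype.card κ) False) :=
  mem_Sp_of_fhat fun S hS => absurd ⟨subset_univ _, card_le_univ _, False.elim⟩ hS

/-- Sums of bounded parts on disjoint coordinates. -/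
theorem conv_mem {ι J : Type*} [DecidableEq ι] [DecidableEq J] (I : Finset J)
    (Γ : J → Finset ι) (S : J → (ι → Bool) → ℤ) (A : J → (ι → Bool) → ℝ) (B : ℕ)
    (b : J → ℕ) (p : J → Prop)
    (hd : ∀ i ∈ I, ∀ j ∈ I, i ≠ j → Disjoint (Γ i) (Γ j))
    (hB : ∀ i ∈ I, ∀ ω, |S i ω| ≤ B)
    (h : ∀ i ∈ I, ∀ φ : ℤ → ℝ, (fun ω => φ (S i ω) * A i ω) ∈ Sp (Lim (Γ i) (b i) (p i))) :
    ∀ φ : ℤ → ℝ, (fun ω => φ (∑ i ∈ I, S i ω) * ∏ i ∈ I, A i ω) ∈
      Sp (Lim (I.biUnion Γ) (∑ i ∈ I, b i) (∃ i ∈ I, p i)) := by
  classical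
  induction I using Finset.induction_on with
  | empty =>
    intro φ
    simpa using const_mem (∅ : Finset ι) 0 (ne := ∃ i ∈ (∅ : Finset J), p i) (by simp) (φ 0)
  | @insert a I ha ih =>
    intro φ
    have ih' := ih (fun i hi j hj => hd i (mem_insert_of_mem hi) j (mem_insert_of_mem hj))
      (fun i hi => hB i (mem_insert_of_mem hi)) (fun i hi => h i (mem_insert_of_mem hi))
    have key : (fun ω => φ (∑ i ∈ insert a I, S i ω) * ∏ i ∈ insert a I, A i ω)
        = ∑ z ∈ Icc (-(B : ℤ)) B, (fun ω => (if S a ω = z then (1 : ℝ) else 0) * A a ω) *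
            fun ω => φ (z + ∑ i ∈ I, S i ω) * ∏ i ∈ I, A i ω := by
      funext ω
      simp only [Finset.sum_apply, Pi.mul_apply]
      rw [sum_eq_single (S a ω)]
      · rw [sum_insert ha, prod_insert ha, if_pos rfl]; ring
      · intro z _ hz; rw [if_neg (Ne.symm hz)]; ring
      · intro hz
        exact absurd (by simpa [abs_le] using hB a (mem_insert_self a I) ω) hz
    rw [key]
    refine Submodule.sum_mem _ fun z _ => ?_
    have h1 := h a (mem_insert_self a I) (fun s => if s = z then 1 else 0)
    have h2 := ih' (fun s => φ (z + s))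
    have hdis : Disjoint (Γ a) (I.biUnion Γ) := by
      rw [disjoint_biUnion_right]
      intro i hi
      exact hd a (mem_insert_self a I) i (mem_insert_of_mem hi) (fun h => ha (h ▸ hi))
    refine Lim_mono ?_ ?_ ?_ (Lim_mul hdis h1 h2)
    · rw [biUnion_insert]
    · rw [sum_insert ha]
    · rintro ⟨i, hi, hp⟩
      rcases mem_insert.1 hi with rfl | hi
      · exact Or.inl hp
      · exact Or.inr ⟨i, hi, hp⟩

variable {τ : Type*} {N k : ℕ}

/-- The coordinates: every slot has `N` bits and `k` pad bits. -/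
abbrev Coord (τ : Type*) (N k : ℕ) := τ × (Fin N ⊕ Fin k)

/-- The block bits of a slot, as coordinates. -/
def xEmb (t : τ) : Fin N ↪ Coord τ N k :=
  ⟨fun i => (t, Sum.inl i), fun i j h => by simpa using h⟩

/-- The pad bits of a slot, as coordinates. -/
def yEmb (t : τ) : Fin k ↪ Coord τ N k :=
  ⟨fun i => (t, Sum.inr i), fun i j h => by simpa using h⟩

/-- The block bits of a slot. -/
def xs (t : τ) (ω : Coord τ N k → Bool) : Fin N → Bool := fun i => ω (t, Sum.inl i)

/-- The pad bits of a slot. -/
def ys (t : τ) (ω : Coord τ N k → Bool) : Fin k → Bool := fun i => ω (t, Sum.inr i)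

variable (v : (Fin N → Bool) → Option (Fin k → Bool))

/-- The slot is read: no block up to it in its group is a leftover point. -/
def Act {G : ℕ} (s : Fin G → τ) (i : Fin G) (ω : Coord τ N k → Bool) : Prop :=
  ∀ j ≤ i, (v (xs (s j) ω)).isSome

open Classical in
/-- The sum counted at a slot. -/
noncomputable def sel {G : ℕ} (s : Fin G → τ) (i : Fin G) (ω : Coord τ N k → Bool) : ℤ :=
  if Act v s i ω then zsum (xs (s i) ω) else 0

open Classical in
/-- The symbol entering the hash at a slot. -/
noncomputable def hsh {G : ℕ} (s : Fin G → τ) (i : Fin G) (ω : Coord τ N k → Bool) : Fin k → Bool :=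
  if Act v s i ω then (v (xs (s i) ω)).getD (ys (s i) ω) else ys (s i) ω

theorem act_zero {G : ℕ} (s : Fin (G + 1) → τ) (ω : Coord τ N k → Bool) :
    Act v s 0 ω ↔ (v (xs (s 0) ω)).isSome := by
  constructor
  · intro h; exact h 0 le_rfl
  · intro h j hj; rw [Fin.le_zero_iff.1 hj]; exact h

theorem act_succ {G : ℕ} (s : Fin (G + 1) → τ) (i : Fin G) (ω : Coord τ N k → Bool) :
    Act v s i.succ ω ↔ (v (xs (s 0) ω)).isSome ∧ Act v (fun j => s j.succ) i ω := by
  constructor
  · intro h
    exact ⟨h 0 (Fin.zero_le _), fun j hj => h j.succ (Fin.succ_le_succ_iff.2 hj)⟩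
  · rintro ⟨h0, h⟩ j hj
    rcases Fin.eq_zero_or_eq_succ j with rfl | ⟨j', rfl⟩
    · exact h0
    · exact h j' (Fin.succ_le_succ_iff.1 hj)

theorem sel_abs_le {G : ℕ} (s : Fin G → τ) (i : Fin G) (ω : Coord τ N k → Bool) :
    |sel v s i ω| ≤ N := by
  rw [sel]
  split_ifs
  · simpa using zsum_abs_le (xs (s i) ω)
  · simp

variable [DecidableEq τ]

theorem group_mem {D : ℕ} (hv : ∀ (φ : ℤ → ℝ) (U : Finset (Fin k)), U.Nonempty →
      cellFn v φ U ∈ Sp (Lim univ D True)) (hD : D ≤ N) :
    ∀ (G : ℕ) (s : Fin G → τ), Function.Injective s → ∀ (U : Fin G → Finset (Fin k)) (φ : ℤ → ℝ),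
      (fun ω : Coord τ N k → Bool => φ (∑ i, sel v s i ω) * ∏ i, chi (U i) (hsh v s i ω)) ∈
        Sp (Lim ((univ.image s) ×ˢ univ)
          (N + G * k + G * D + (N - D) * (univ.filter fun i => U i = ∅).card)
          (∃ i, (U i).Nonempty)) := by
  classical
  intro G
  induction G with
  | zero =>
    intro s _ U φ
    simpa using const_mem ((univ.image s) ×ˢ univ) _ (ne := ∃ i, (U i).Nonempty) (by simp) (φ 0)
  | succ G ih =>
    intro s hs U φ
    set s' : Fin G → τ := fun j => s j.succ with hs'
    set U' : Fin G → Finset (Fin k) := fun j => U j.succ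
    have hs'inj : Function.Injective s' := fun a b h => Fin.succ_injective _ (hs h)
    set X0 := (univ : Finset (Fin N)).map (xEmb (k := k) (s 0))
    set rest := (univ.image s') ×ˢ (univ : Finset (Fin N ⊕ Fin k))
    -- the part where the first block is a cell point
    set slot0 : ℤ → (Coord τ N k → Bool) → ℝ := fun z ω =>
      cellFn v (fun a => if a = z then 1 else 0) (U 0) (fun i => ω (xEmb (s 0) i))
    set restFn : ℤ → (Coord τ N k → Bool) → ℝ := fun z ω =>
      φ (z + ∑ i, sel v s' i ω) * ∏ i, chi (U' i) (hsh v s' i ω)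
    -- the part where it is a leftover point
    set stop : (Coord τ N k → Bool) → ℝ := fun ω =>
      (if v (xs (s 0) ω) = none then φ 0 else 0)
    set Ypads : Finset (Coord τ N k) := univ.biUnion fun i => (U i).map (yEmb (s i))
    have key : (fun ω : Coord τ N k → Bool =>
          φ (∑ i, sel v s i ω) * ∏ i, chi (U i) (hsh v s i ω))
        = (∑ z ∈ Icc (-(N : ℤ)) N, slot0 z * restFn z) + stop * chi Ypads := by
      funext ω
      simp only [Pi.add_apply, Finset.sum_apply, Pi.mul_apply, slot0, restFn, stop, cellFn]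
      change _ = (∑ z ∈ _, Option.elim (v (xs (s 0) ω)) 0 (fun c =>
        (if zsum (xs (s 0) ω) = z then (1 : ℝ) else 0) * chi (U 0) c) * _) + _
      cases hx : v (xs (s 0) ω) with
      | none =>
        have hna : ∀ i, ¬ Act v s i ω := fun i h => by
          have := h 0 (Fin.zero_le _); simp [hx] at this
        have hY : chi Ypads ω = ∏ i, chi (U i) (ys (s i) ω) := by
          simp only [Ypads, chi]
          rw [prod_biUnion]
          · simp only [prod_map]; rfl
          · intro i _ j _ hij
            simp only [Function.onFun, disjoint_left, mem_map, not_exists, not_and]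
            rintro a ⟨c, -, rfl⟩ c' _ h
            exact hij (hs (congrArg Prod.fst h)).symm
        simp [sel, hsh, hna, hY]
        
      | some c =>
        have h0 : Act v s 0 ω := (act_zero v s ω).2 (by simp [hx])
        have hsel : ∀ i : Fin G, sel v s i.succ ω = sel v s' i ω := fun i => by
          simp only [sel, act_succ, hx, Option.isSome_some, true_and, hs']
        have hhsh : ∀ i : Fin G, hsh v s i.succ ω = hsh v s' i ω := fun i => by
          simp only [hsh, act_succ, hx, Option.isSome_some, true_and, hs']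
        rw [Fin.sum_univ_succ, Fin.prod_univ_succ, sum_eq_single (zsum (xs (s 0) ω))]
        · simp only [hsel, hhsh]
          simp [sel, hsh, h0, hx, U', mul_left_comm, mul_assoc]
        · intro z _ hz; simp [Ne.symm hz]
        · intro hz
          exact absurd (by simpa [abs_le] using zsum_abs_le (xs (s 0) ω)) hz
    rw [key]
    have hX0 : X0 ⊆ (univ.image s) ×ˢ univ := by
      intro a ha
      obtain ⟨i, -, rfl⟩ := mem_map.1 ha
      exact mem_product.2 ⟨mem_image.2 ⟨0, mem_univ _, rfl⟩, mem_univ _⟩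
    have hrest : rest ⊆ (univ.image s) ×ˢ univ := by
      refine product_subset_product_left fun a ha => ?_
      obtain ⟨i, -, rfl⟩ := mem_image.1 ha
      simp [hs']
    have hzeros : (univ.filter fun i => U i = ∅).card
        = (if U 0 = ∅ then 1 else 0) + (univ.filter fun i => U' i = ∅).card := by
      rw [card_filter, Fin.sum_univ_succ, card_filter]
    refine Submodule.add_mem _ (Submodule.sum_mem _ fun z _ => ?_) ?_
    · have hdis : Disjoint X0 rest := by
        rw [disjoint_left]
        rintro a ha hb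
        obtain ⟨i, -, rfl⟩ := mem_map.1 ha
        obtain ⟨j, -, hj⟩ := mem_image.1 (mem_product.1 hb).1
        exact Fin.succ_ne_zero j (hs hj)
      have h0 : slot0 z ∈ Sp (Lim X0 (D + (N - D) * if U 0 = ∅ then 1 else 0) (U 0).Nonempty) := by
        by_cases hU : U 0 = ∅
        · refine Lim_mono (Subset.refl _) ?_ ?_ (comp_mem_Sp (xEmb (s 0)) (any_mem_Sp _))
          · rw [if_pos hU, mul_one, Fintype.card_fin]; omega
          · intro h; simp [hU] at h
        · refine Lim_mono (Subset.refl _) ?_ ?_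
            (comp_mem_Sp (xEmb (s 0)) (hv _ _ (nonempty_iff_ne_empty.2 hU)))
          · simp [hU]
          · exact fun _ => trivial
      refine Lim_mono (union_subset hX0 hrest) ?_ ?_
        (Lim_mul hdis h0 (ih s' hs'inj U' (fun a => φ (z + a))))
      · rw [hzeros]; ring_nf; omega
      · rintro ⟨i, hi⟩
        rcases Fin.eq_zero_or_eq_succ i with rfl | ⟨i', rfl⟩
        · exact Or.inl hi
        · exact Or.inr ⟨i', hi⟩
    · have hY : Ypads ⊆ (univ.image s) ×ˢ univ := by
        intro a ha
        obtain ⟨i, -, hi⟩ := mem_biUnion.1 ha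
        obtain ⟨c, -, rfl⟩ := mem_map.1 hi
        exact mem_product.2 ⟨mem_image.2 ⟨i, mem_univ _, rfl⟩, mem_univ _⟩
      have hYcard : Ypads.card ≤ (G + 1) * k := by
        refine card_biUnion_le.trans ?_
        calc ∑ i : Fin (G + 1), ((U i).map (yEmb (N := N) (s i))).card ≤ ∑ _i : Fin (G + 1), k :=
              sum_le_sum fun i _ => by simpa using card_le_univ (U i)
          _ = (G + 1) * k := by simp
      have hdis : Disjoint X0 Ypads := by
        rw [disjoint_left]
        intro a ha hb
        obtain ⟨i, -, rfl⟩ := mem_map.1 ha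
        obtain ⟨j, -, hj⟩ := mem_biUnion.1 hb
        obtain ⟨c, -, hc⟩ := mem_map.1 hj
        exact absurd (congrArg Prod.snd hc) (by simp [xEmb, yEmb])
      have h1 : stop ∈ Sp (Lim X0 N False) := by
        have := comp_mem_Sp (xEmb (k := k) (s 0))
          (any_mem_Sp fun x => if v x = none then φ 0 else 0)
        rw [Fintype.card_fin] at this
        exact this
      have h2 : chi Ypads ∈ Sp (Lim Ypads ((G + 1) * k) (∃ i, (U i).Nonempty)) :=
        chi_mem ⟨Subset.refl _, hYcard, fun ⟨i, hi⟩ =>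
          ⟨yEmb (s i) hi.choose, mem_biUnion.2 ⟨i, mem_univ _, mem_map.2 ⟨_, hi.choose_spec, rfl⟩⟩⟩⟩
      refine Lim_mono (union_subset hX0 hY) ?_ ?_ (Lim_mul hdis h1 h2)
      · omega
      · exact fun h => Or.inr h

end Vale.Agent.P047
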