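import Vale.Agent.P047.Group

/-!
The hashed function, its degree and its correlation with the counted sum.
-/

namespace Vale.Agent.P047

open Finset

section

variable {τ : Type*} [Fintype τ] [DecidableEq τ] {k l : ℕ}

/-- The parity of a combination of rows. -/
def comb (R : Fin l → Finset (τ × Fin k)) (u : Finset (Fin l)) (t : τ) : Finset (Fin k) :=
  univ.filter fun c => Odd (u.filter fun i => (t, c) ∈ R i).card

theorem prod_rows (R : Fin l → Finset (τ × Fin k)) (u : Finset (Fin l)) (h : τ → Fin k → Bool) :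
    ∏ i ∈ u, chi (R i) (fun e => h e.1 e.2) = ∏ t, chi (comb R u t) (h t) := by
  classical
  calc ∏ i ∈ u, chi (R i) (fun e => h e.1 e.2)
      = ∏ i ∈ u, ∏ e : τ × Fin k, if e ∈ R i then spin (h e.1 e.2) else 1 := by
        simp [chi, prod_ite_mem]
    _ = ∏ e : τ × Fin k, spin (h e.1 e.2) ^ (u.filter fun i => e ∈ R i).card := by
        rw [prod_comm]
        refine prod_congr rfl fun e _ => ?_
        rw [← prod_filter, prod_const]
    _ = ∏ t, ∏ c, spin (h t c) ^ (u.filter fun i => (t, c) ∈ R i).card := Fintype.prod_prod_type _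
    _ = _ := by
        refine prod_congr rfl fun t _ => ?_
        rw [chi, comb, prod_filter]
        refine prod_congr rfl fun c _ => ?_
        cases h t c
        · rcases Nat.even_or_odd (u.filter fun i => (t, c) ∈ R i).card with he | ho
          · simp [spin, he.neg_one_pow, Nat.not_odd_iff_even.2 he]
          · simp [spin, ho.neg_one_pow, ho]
        · simp [spin]

/-- The index of a string of bits. -/
noncomputable def idx (z : Fin l → Bool) : ℕ :=
  (Fintype.equivFinOfCardEq (α := Fin l → Bool) (n := 2 ^ l) (by simp) z : ℕ)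

theorem card_idx_lt (w : ℕ) (hw : w ≤ 2 ^ l) :
    (univ.filter fun z : Fin l → Bool => idx z < w).card = w := by
  set e := Fintype.equivFinOfCardEq (α := Fin l → Bool) (n := 2 ^ l) (by simp)
  have : (univ.filter fun z : Fin l → Bool => idx z < w)
      = (univ : Finset (Fin w)).map ((Fin.castLEEmb hw).trans e.symm.toEmbedding) := by
    ext z
    rw [mem_filter, mem_map]
    simp only [mem_univ, true_and, idx]
    constructor
    · intro hz
      exact ⟨⟨_, hz⟩, e.symm_apply_apply z⟩
    · rintro ⟨i, rfl⟩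
      simp [e]
  rw [this, card_map, card_univ, Fintype.card_fin]

/-- The coefficient of a combination, as a function of the threshold. -/
noncomputable def coef (u : Finset (Fin l)) (w : ℕ) : ℝ :=
  2 / 2 ^ l * (∑ z ∈ univ.filter (fun z : Fin l → Bool => idx z < w), chi u z)
    - if u = ∅ then 1 else 0

theorem coef_empty (w : ℕ) (hw : w ≤ 2 ^ l) :
    coef (∅ : Finset (Fin l)) w = 2 * (w : ℝ) / 2 ^ l - 1 := by
  simp [coef, card_idx_lt w hw]
  ring

theorem expand (b : Fin l → Bool) (w : ℕ) :
    (if idx b < w then (1 : ℝ) else -1) = ∑ u : Finset (Fin l), coef u w * chi u b := by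
  classical
  have h2 : (2 : ℝ) ^ l ≠ 0 := by positivity
  simp only [coef, sub_mul, sum_sub_distrib, ite_mul, zero_mul, sum_ite_eq', mem_univ, if_true,
    chi_empty, mul_one, mul_assoc, sum_mul, ← mul_sum]
  rw [sum_comm]
  have : ∀ z : Fin l → Bool, ∑ u : Finset (Fin l), chi u z * chi u b
      = if z = b then (2 : ℝ) ^ l else 0 := fun z => by
    rw [sum_chi_mul, Fintype.card_fin]
  simp only [this, sum_ite_eq', mem_filter, mem_univ, true_and]
  split_ifs
  · field_simp; norm_num
  · simp

end

variable {m G N k l : ℕ}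

/-- The slots of a group. -/
def grp (g : Fin m) (i : Fin G) : Fin m × Fin G := (g, i)

theorem grp_injective (g : Fin m) : Function.Injective (grp (G := G) g) :=
  fun _ _ h => (Prod.ext_iff.1 h).2

/-- The counted sum. -/
noncomputable def total (v : (Fin N → Bool) → Option (Fin k → Bool))
    (ω : Coord (Fin m × Fin G) N k → Bool) : ℤ :=
  ∑ g, ∑ i, sel v (grp g) i ω

/-- The hashed function. -/
noncomputable def hashFn (v : (Fin N → Bool) → Option (Fin k → Bool))
    (R : Fin l → Finset ((Fin m × Fin G) × Fin k)) (W : ℤ → ℤ)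
    (ω : Coord (Fin m × Fin G) N k → Bool) : ℝ :=
  if idx (fun i => decide (chi (R i) (fun e => hsh v (grp e.1.1) e.1.2 ω e.2) = 1)) <
      (W (total v ω)).toNat then 1 else -1

theorem total_abs_le (v : (Fin N → Bool) → Option (Fin k → Bool))
    (ω : Coord (Fin m × Fin G) N k → Bool) : |total v ω| ≤ (m * G * N : ℕ) := by
  refine (abs_sum_le_sum_abs _ _).trans ?_
  refine le_trans (sum_le_sum fun g _ => (abs_sum_le_sum_abs _ _).trans
    (sum_le_sum fun i _ => sel_abs_le v (grp g) i ω)) ?_
  simp [mul_assoc]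

theorem spin_decide {κ : Type*} (S : Finset κ) (x : κ → Bool) :
    spin (decide (chi S x = 1)) = chi S x := by
  have h : chi S x = 1 ∨ chi S x = -1 := by
    have : |chi S x| = 1 := by
      rw [chi, Finset.abs_prod]; exact prod_eq_one fun i _ => spin_abs _
    rcases abs_eq (zero_le_one' ℝ) |>.1 this with h | h
    · exact Or.inl h
    · exact Or.inr h
  rcases h with h | h <;> simp [spin, h] <;> norm_num

theorem hashFn_eq (v : (Fin N → Bool) → Option (Fin k → Bool))
    (R : Fin l → Finset ((Fin m × Fin G) × Fin k)) (W : ℤ → ℤ)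
    (ω : Coord (Fin m × Fin G) N k → Bool) :
    hashFn v R W ω = ∑ u : Finset (Fin l), coef u (W (total v ω)).toNat *
      ∏ g, ∏ i, chi (comb R u (g, i)) (hsh v (grp g) i ω) := by
  rw [hashFn, expand]
  refine sum_congr rfl fun u _ => ?_
  congr 1
  rw [← Fintype.prod_prod_type (f := fun t : Fin m × Fin G =>
      chi (comb R u t) (hsh v (grp t.1) t.2 ω)),
    ← prod_rows R u (fun t => hsh v (grp t.1) t.2 ω), chi]
  exact prod_congr rfl fun i _ => spin_decide _ _

variable {D : ℕ}

theorem term_mem (v : (Fin N → Bool) → Option (Fin k → Bool))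
    (hv : ∀ (φ : ℤ → ℝ) (U : Finset (Fin k)), U.Nonempty → cellFn v φ U ∈ Sp (Lim univ D True))
    (hD : D ≤ N) (U : Fin m → Fin G → Finset (Fin k)) (φ : ℤ → ℝ) :
    (fun ω => φ (total v ω) * ∏ g, ∏ i, chi (U g i) (hsh v (grp g) i ω)) ∈
      Sp (Lim (univ : Finset (Coord (Fin m × Fin G) N k))
        (m * (N + G * k + G * D)
          + (N - D) * (univ.filter fun t : Fin m × Fin G => U t.1 t.2 = ∅).card)
        (∃ g i, (U g i).Nonempty)) := by
  classical
  have h := conv_mem (univ : Finset (Fin m))
    (fun g => (univ.image (grp g)) ×ˢ (univ : Finset (Fin N ⊕ Fin k)))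
    (fun g ω => ∑ i, sel v (grp g) i ω) (fun g ω => ∏ i, chi (U g i) (hsh v (grp g) i ω))
    (G * N) (fun g => N + G * k + G * D + (N - D) * (univ.filter fun i => U g i = ∅).card)
    (fun g => ∃ i, (U g i).Nonempty)
    (fun g _ g' _ hne => by
      rw [disjoint_left]
      intro a ha hb
      obtain ⟨i, -, hi⟩ := mem_image.1 (mem_product.1 ha).1
      obtain ⟨j, -, hj⟩ := mem_image.1 (mem_product.1 hb).1
      exact hne (Prod.ext_iff.1 (hi.trans hj.symm)).1)
    (fun g _ ω => (abs_sum_le_sum_abs _ _).trans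
      (le_trans (sum_le_sum fun i _ => sel_abs_le v (grp g) i ω) (by simp)))
    (fun g _ φ => group_mem v hv hD G (grp g) (grp_injective g) (U g) φ) φ
  refine Lim_mono (subset_univ _) (le_of_eq ?_) ?_ h
  · rw [sum_add_distrib, sum_const, card_univ, Fintype.card_fin, smul_eq_mul, ← mul_sum]
    congr 2
    simp only [card_filter]
    rw [Fintype.sum_prod_type]
  · rintro ⟨g, i, hi⟩
    exact ⟨g, mem_univ g, i, hi⟩

theorem total_mem (v : (Fin N → Bool) → Option (Fin k → Bool))
    (hv : ∀ (φ : ℤ → ℝ) (U : Finset (Fin k)), U.Nonempty → cellFn v φ U ∈ Sp (Lim univ D True))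
    (hD : D ≤ N) :
    (fun ω => (total v ω : ℝ)) ∈
      Sp (Lim (univ : Finset (Coord (Fin m × Fin G) N k)) (N + G * k + G * N) False) := by
  have : (fun ω : Coord (Fin m × Fin G) N k → Bool => (total v ω : ℝ))
      = ∑ g, fun ω => ((∑ i, sel v (grp g) i ω : ℤ) : ℝ) := by
    funext ω; simp [total]
  rw [this]
  refine Submodule.sum_mem _ fun g _ => ?_
  have h := group_mem v hv hD G (grp g) (grp_injective g) (fun _ => ∅) (fun s => (s : ℝ))
  simp only [chi_empty, prod_const_one, mul_one, filter_true, card_univ,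
    Fintype.card_fin] at h
  refine Lim_mono (subset_univ _) ?_ False.elim h
  have : G * D + (N - D) * G = G * N := by
    rw [mul_comm (N - D), ← mul_add, Nat.add_sub_cancel' hD]
  omega

/-- Degree and correlation of the hashed function. -/
theorem hashFn_spec (v : (Fin N → Bool) → Option (Fin k → Bool))
    (hv : ∀ (φ : ℤ → ℝ) (U : Finset (Fin k)), U.Nonempty → cellFn v φ U ∈ Sp (Lim univ D True))
    (hD : D ≤ N) (R : Fin l → Finset ((Fin m × Fin G) × Fin k)) (z : ℕ)
    (hR : ∀ u : Finset (Fin l), u.Nonempty → (univ.filter fun t : Fin m × Fin G =>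
      ∀ c, Even (u.filter fun i => (t, c) ∈ R i).card).card < z)
    (hz : z ≤ m * G) (W : ℤ → ℤ) (p : Polynomial ℝ) (d : ℕ) (hpd : p.natDegree ≤ d)
    (hW : ∀ s : ℤ, |s| ≤ (m * G * N : ℕ) → 0 ≤ W s ∧ W s ≤ 2 ^ l ∧ p.eval (s : ℝ) = W s)
    (B : ℕ) (hB1 : d * (N + G * k + G * N) ≤ B)
    (hB2 : m * (N + G * k + G * D) + (N - D) * z ≤ B) :
    degree (hashFn v R W) ≤ B ∧
      cubeAvg (fun ω => hashFn v R W ω * total v ω)
        = cubeAvg (fun ω : Coord (Fin m × Fin G) N k → Bool =>
            (total v ω : ℝ) * (2 * (W (total v ω) : ℝ) / 2 ^ l - 1)) := by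
  classical
  have hb : ∀ ω : Coord (Fin m × Fin G) N k → Bool,
      ((W (total v ω)).toNat : ℝ) = W (total v ω) ∧ (W (total v ω)).toNat ≤ 2 ^ l := by
    intro ω
    obtain ⟨h0, h1, -⟩ := hW _ (total_abs_le v ω)
    refine ⟨?_, ?_⟩
    · have := Int.toNat_of_nonneg h0
      exact_mod_cast congrArg (fun a : ℤ => (a : ℝ)) this
    · rw [Int.toNat_le]; exact_mod_cast h1
  have hne : ∀ u : Finset (Fin l), u.Nonempty →
      (univ.filter fun t : Fin m × Fin G => comb R u (t.1, t.2) = ∅).card < z ∧
        ∃ g i, (comb R u (g, i)).Nonempty := by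
    intro u hu
    have he : (univ.filter fun t : Fin m × Fin G => comb R u (t.1, t.2) = ∅) =
        univ.filter fun t : Fin m × Fin G =>
          ∀ c, Even (u.filter fun i => (t, c) ∈ R i).card := by
      refine filter_congr fun t _ => ?_
      simp [comb, filter_eq_empty_iff]
    refine ⟨he ▸ hR u hu, ?_⟩
    by_contra hall
    push Not at hall
    have hlt := hR u hu
    rw [← he, filter_true_of_mem (fun t _ => not_nonempty_iff_eq_empty.1 (by simp [hall])),
      card_univ, Fintype.card_prod, Fintype.card_fin, Fintype.card_fin] at hlt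
    omega
  set U : Finset (Fin l) → Fin m → Fin G → Finset (Fin k) := fun u g i => comb R u (g, i)
  set tu : Finset (Fin l) → (Coord (Fin m × Fin G) N k → Bool) → ℝ := fun u ω =>
    coef u (W (total v ω)).toNat * ∏ g, ∏ i, chi (comb R u (g, i)) (hsh v (grp g) i ω)
  have hsum : hashFn v R W = ∑ u, tu u := by
    funext ω; rw [Finset.sum_apply]; exact hashFn_eq v R W ω
  have htu : ∀ u : Finset (Fin l),
      tu u ∈ Sp (Lim (univ : Finset (Coord (Fin m × Fin G) N k)) B False) := by
    intro u
    rcases u.eq_empty_or_nonempty with rfl | hu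
    · have : tu ∅ = fun ω => 2 / 2 ^ l * p.eval (total v ω : ℝ) - 1 := by
        funext ω
        simp only [tu, coef_empty _ (hb ω).2, (hb ω).1, (hW _ (total_abs_le v ω)).2.2]
        simp [comb]
        ring
      rw [this]
      have hp : (fun ω : Coord (Fin m × Fin G) N k → Bool => 2 / 2 ^ l * p.eval (total v ω : ℝ) - 1)
          = (∑ j ∈ range (p.natDegree + 1),
              (2 / 2 ^ l * p.coeff j) • (fun ω => (total v ω : ℝ)) ^ j) - fun _ => 1 := by
        funext ω
        simp [Polynomial.eval_eq_sum_range, mul_sum, mul_assoc]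
      rw [hp]
      refine Submodule.sub_mem _ (Submodule.sum_mem _ fun j hj => Submodule.smul_mem _ _ ?_)
        (one_mem _ _ not_false)
      refine Lim_mono (Subset.refl _) ?_ False.elim (Lim_pow (total_mem v hv hD) j)
      refine le_trans (Nat.mul_le_mul_right _ ?_) hB1
      have := mem_range.1 hj
      omega
    · refine Lim_mono (Subset.refl _) ?_ False.elim
        (term_mem v hv hD (U u) (fun s => coef u (W s).toNat))
      refine le_trans (Nat.add_le_add_left (Nat.mul_le_mul_left _ ?_) _) hB2
      exact (hne u hu).1.le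
  refine ⟨degree_le (hsum ▸ Submodule.sum_mem _ fun u _ => htu u), ?_⟩
  have hzero : ∀ u : Finset (Fin l), u.Nonempty →
      cubeAvg (fun ω => tu u ω * total v ω) = 0 := by
    intro u hu
    have := cubeAvg_eq_zero (hne u hu).2
      (term_mem v hv hD (U u) (fun s => coef u (W s).toNat * s))
    rw [← this]
    congr 1
    funext ω
    simp only [tu, U]; ring
  have hmain : cubeAvg (fun ω => hashFn v R W ω * total v ω)
      = ∑ u, cubeAvg (fun ω => tu u ω * total v ω) := by
    simp only [cubeAvg, hsum, Finset.sum_apply, sum_mul]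
    rw [sum_comm, sum_div]
  rw [hmain, sum_eq_single ∅ (fun u _ hu => hzero u (nonempty_iff_ne_empty.2 hu)) (by simp)]
  congr 1
  funext ω
  simp only [tu, coef_empty _ (hb ω).2, (hb ω).1]
  simp [comb]
  ring

end Vale.Agent.P047
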