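import Vale.Agent.P047.Hash

/-!
First and second moments of the part of the total sum that is not counted.
-/

namespace Vale.Agent.P047

open Finset

section

variable {ι : Type*} [Fintype ι] [DecidableEq ι]

theorem cubeAvg_marginal {κ : Type*} [Fintype κ] [DecidableEq κ] (e : κ ↪ ι)
    (f : (κ → Bool) → ℝ) : cubeAvg (fun ω : ι → Bool => f fun i => ω (e i)) = cubeAvg f := by
  have h : (fun ω : ι → Bool => f fun i => ω (e i))
      = ∑ S, fhat f S • chi (S.map e) := by
    funext ω
    conv_lhs => rw [fourier_eq f]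
    simp [chi]
  rw [h, cubeAvg_eq_fhat f]
  simp only [cubeAvg, Finset.sum_apply, Pi.smul_apply, smul_eq_mul]
  rw [sum_comm, sum_div, sum_eq_single (∅ : Finset κ)]
  · simp
  · intro S _ hS
    rw [← mul_sum, mul_div_assoc]
    have : (∑ ω, chi (S.map e) ω) / (2 : ℝ) ^ Fintype.card ι = 0 := by
      have := cubeAvg_chi (S.map e)
      rw [if_neg (by simpa using hS)] at this
      exact this
    rw [this, mul_zero]
  · simp

theorem cubeAvg_le {f g : (ι → Bool) → ℝ} (h : ∀ ω, f ω ≤ g ω) : cubeAvg f ≤ cubeAvg g :=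
  div_le_div_of_nonneg_right (sum_le_sum fun ω _ => h ω) (by positivity)

theorem cubeAvg_sum {J : Type*} (s : Finset J) (f : J → (ι → Bool) → ℝ) :
    cubeAvg (fun ω => ∑ j ∈ s, f j ω) = ∑ j ∈ s, cubeAvg (f j) := by
  simp only [cubeAvg]
  rw [sum_comm, sum_div]

theorem cubeAvg_abs_sq (f : (ι → Bool) → ℝ) :
    (cubeAvg fun ω => |f ω|) ^ 2 ≤ cubeAvg fun ω => f ω ^ 2 := by
  have h := sq_sum_le_card_mul_sum_sq (s := (univ : Finset (ι → Bool))) (f := fun ω => |f ω|)
  simp only [card_univ, Fintype.card_fun, Fintype.card_bool, Nat.cast_pow, Nat.cast_ofNat,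
    sq_abs] at h
  simp only [cubeAvg, div_pow]
  rw [div_le_div_iff₀ (by positivity) (by positivity)]
  nlinarith [h, pow_pos (two_pos : (0 : ℝ) < 2) (Fintype.card ι)]

theorem cubeAvg_sq_spins (Γ : Finset ι) :
    cubeAvg (fun ω => (∑ i ∈ Γ, spin (ω i)) ^ 2) = Γ.card := by
  have : (fun ω : ι → Bool => (∑ i ∈ Γ, spin (ω i)) ^ 2)
      = fun ω => ∑ i ∈ Γ, ∑ j ∈ Γ, chi (symmDiff {i} {j}) ω := by
    funext ω
    simp only [← chi_mul, chi_singleton, sq, sum_mul_sum]
  rw [this]
  simp only [cubeAvg_sum, cubeAvg_chi, ← bot_eq_empty, symmDiff_eq_bot, singleton_inj]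
  simp

end

variable {m G N k : ℕ} (v : (Fin N → Bool) → Option (Fin k → Bool))

/-- All block bits of one slot negated. -/
def flipSlot {τ : Type*} [DecidableEq τ] (t : τ) (ω : Coord τ N k → Bool) : Coord τ N k → Bool :=
  fun e => if e.1 = t ∧ e.2.isLeft then !(ω e) else ω e

theorem flipSlot_flipSlot {τ : Type*} [DecidableEq τ] (t : τ) (ω : Coord τ N k → Bool) :
    flipSlot t (flipSlot t ω) = ω := by
  funext e
  simp only [flipSlot]
  split_ifs <;> simp

theorem xs_flipSlot {τ : Type*} [DecidableEq τ] (t t' : τ) (ω : Coord τ N k → Bool) :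
    xs t' (flipSlot t ω) = if t' = t then flipAll (xs t' ω) else xs t' ω := by
  funext i
  by_cases h : t' = t <;> simp [xs, flipSlot, flipAll, h]

theorem act_flipSlot (hflip : ∀ x, (v (flipAll x)).isSome = (v x).isSome)
    {τ : Type*} [DecidableEq τ] (t : τ) {G : ℕ} (s : Fin G → τ) (i : Fin G)
    (ω : Coord τ N k → Bool) : Act v s i (flipSlot t ω) ↔ Act v s i ω := by
  unfold Act
  refine forall₂_congr fun j _ => ?_
  rw [xs_flipSlot]
  split_ifs
  · rw [hflip]
  · rfl

open Classical in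
/-- One if the slot is not counted. -/
noncomputable def missed (t : Fin m × Fin G) (ω : Coord (Fin m × Fin G) N k → Bool) : ℝ :=
  if Act v (grp t.1) t.2 ω then 0 else 1

theorem total_add_missed (ω : Coord (Fin m × Fin G) N k → Bool) :
    (∑ t : Fin m × Fin G, (zsum (xs t ω) : ℝ)) - total v ω
      = ∑ t : Fin m × Fin G, missed v t ω * zsum (xs t ω) := by
  rw [total, Int.cast_sum, Fintype.sum_prod_type, Fintype.sum_prod_type, ← sum_sub_distrib]
  refine sum_congr rfl fun g _ => ?_
  rw [Int.cast_sum, ← sum_sub_distrib]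
  refine sum_congr rfl fun i _ => ?_
  by_cases h : Act v (grp g) i ω
  · simp [sel, missed, h, grp]
  · simp [sel, missed, h]

theorem missed_sq_le (hflip : ∀ x, (v (flipAll x)).isSome = (v x).isSome) (p : ℝ)
    (hp : cubeAvg (fun x : Fin N → Bool => if v x = none then (1 : ℝ) else 0) ≤ p) :
    cubeAvg (fun ω : Coord (Fin m × Fin G) N k → Bool =>
      (∑ t : Fin m × Fin G, missed v t ω * zsum (xs t ω)) ^ 2)
      ≤ (m * G * (N ^ 2 * (G * p)) : ℝ) := by
  classical
  set T : (Coord (Fin m × Fin G) N k → Bool) → Fin m × Fin G → ℝ := fun ω t =>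
    missed v t ω * zsum (xs t ω)
  have hcross : ∀ t t' : Fin m × Fin G, t ≠ t' →
      cubeAvg (fun ω => T ω t * T ω t') = 0 := by
    intro t t' hne
    have hΦ : Function.Bijective (flipSlot (N := N) (k := k) t) :=
      Function.Involutive.bijective (flipSlot_flipSlot t)
    have h : ∑ ω, T (flipSlot t ω) t * T (flipSlot t ω) t' = ∑ ω, T ω t * T ω t' :=
      Fintype.sum_bijective _ hΦ _ _ fun ω => rfl
    have h' : ∀ ω, T (flipSlot t ω) t * T (flipSlot t ω) t' = -(T ω t * T ω t') := by
      intro ω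
      simp only [T, missed, act_flipSlot v hflip, xs_flipSlot, if_pos, if_neg hne.symm,
        zsum_flipAll]
      push_cast
      ring
    simp only [h', sum_neg_distrib] at h
    rw [cubeAvg, div_eq_zero_iff]
    exact Or.inl (by linarith)
  have hdiag : ∀ t : Fin m × Fin G, cubeAvg (fun ω => T ω t * T ω t) ≤ N ^ 2 * (G * p) := by
    intro t
    have hpt : ∀ ω, T ω t * T ω t ≤ (N : ℝ) ^ 2 *
        ∑ j : Fin G, if v (xs (t.1, j) ω) = none then (1 : ℝ) else 0 := by
      intro ω
      simp only [T, missed]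
      split_ifs with h
      · simp only [zero_mul]
        positivity
      · have hz : |(zsum (xs t ω) : ℝ)| ≤ N := by
          rw [← Int.cast_abs]; exact_mod_cast (by simpa using zsum_abs_le (xs t ω))
        obtain ⟨j, hj⟩ : ∃ j, v (xs (t.1, j) ω) = none := by
          by_contra hall
          exact h fun j _ => Option.isSome_iff_ne_none.2 fun hn => hall ⟨j, hn⟩
        have h1 : (1 : ℝ) ≤ ∑ j : Fin G, if v (xs (t.1, j) ω) = none then (1 : ℝ) else 0 := by
          refine le_trans (le_of_eq (show (1 : ℝ) = if v (xs (t.1, j) ω) = none then (1 : ℝ) else 0 by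
            rw [if_pos hj])) ?_
          exact single_le_sum (f := fun j : Fin G => if v (xs (t.1, j) ω) = none then (1 : ℝ) else 0)
            (fun j _ => by positivity) (mem_univ j)
        calc (1 * (zsum (xs t ω) : ℝ)) * (1 * zsum (xs t ω)) = |(zsum (xs t ω) : ℝ)| ^ 2 := by
              rw [sq_abs]; ring
          _ ≤ (N : ℝ) ^ 2 * 1 := by rw [mul_one]; exact pow_le_pow_left₀ (abs_nonneg _) hz 2
          _ ≤ _ := mul_le_mul_of_nonneg_left h1 (by positivity)
    refine (cubeAvg_le hpt).trans ?_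
    have : cubeAvg (fun ω : Coord (Fin m × Fin G) N k → Bool => (N : ℝ) ^ 2 *
        ∑ j : Fin G, if v (xs (t.1, j) ω) = none then (1 : ℝ) else 0)
        = (N : ℝ) ^ 2 * ∑ j : Fin G, cubeAvg (fun ω : Coord (Fin m × Fin G) N k → Bool =>
            if v (xs (t.1, j) ω) = none then (1 : ℝ) else 0) := by
      rw [← cubeAvg_sum, ← cubeAvg_smul]; rfl
    rw [this]
    refine mul_le_mul_of_nonneg_left ?_ (by positivity)
    calc ∑ j : Fin G, cubeAvg (fun ω : Coord (Fin m × Fin G) N k → Bool =>
            if v (xs (t.1, j) ω) = none then (1 : ℝ) else 0) ≤ ∑ _j : Fin G, p := by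
          refine sum_le_sum fun j _ => le_trans (le_of_eq ?_) hp
          exact cubeAvg_marginal (xEmb (N := N) (k := k) (t.1, j))
            (fun x => if v x = none then (1 : ℝ) else 0)
      _ = (G : ℝ) * p := by simp
  calc cubeAvg (fun ω => (∑ t, T ω t) ^ 2)
      = ∑ t, ∑ t', cubeAvg (fun ω => T ω t * T ω t') := by
        simp only [← cubeAvg_sum, sq, sum_mul_sum]
    _ = ∑ t, cubeAvg (fun ω => T ω t * T ω t) := by
        refine sum_congr rfl fun t _ => sum_eq_single t (fun t' _ h => hcross t t' (Ne.symm h)) ?_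
        simp
    _ ≤ ∑ _t : Fin m × Fin G, (N : ℝ) ^ 2 * (G * p) := sum_le_sum fun t _ => hdiag t
    _ = _ := by simp

end Vale.Agent.P047
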