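import Vale.Agent.P047.Spectrum

/-!
An integer valued low degree polynomial approximating the sign.
-/

namespace Vale.Agent.P047

open Finset Polynomial

theorem exists_antideriv (K : ℝ[X]) :
    ∃ P : ℝ[X], P.natDegree ≤ K.natDegree + 1 ∧ P.eval 0 = 0 ∧ derivative P = K := by
  refine ⟨∑ i ∈ range (K.natDegree + 1), C (K.coeff i / (i + 1)) * X ^ (i + 1), ?_, ?_, ?_⟩
  · refine natDegree_sum_le_of_forall_le _ _ fun i hi => (natDegree_C_mul_X_pow_le _ _).trans ?_
    have := mem_range.1 hi; omega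
  · simp [eval_finsetSum]
  · conv_rhs => rw [K.as_sum_range_C_mul_X_pow]
    rw [derivative_sum]
    refine sum_congr rfl fun i _ => ?_
    rw [derivative_C_mul_X_pow]
    push_cast
    rw [div_mul_cancel₀ _ (by positivity : ((i : ℝ) + 1) ≠ 0)]

theorem sq_eval_neg (n : ℤ) {t : ℝ} (ht : |t| ≤ 1) :
    ((Chebyshev.T ℝ n).eval (-t)) ^ 2 = ((Chebyshev.T ℝ n).eval t) ^ 2 := by
  obtain ⟨h1, h2⟩ := abs_le.1 ht
  rw [← Real.cos_arccos h1 h2, ← Real.cos_pi_sub, Chebyshev.T_real_cos, Chebyshev.T_real_cos,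
    mul_sub, Real.cos_sub, Real.sin_int_mul_pi, zero_mul, add_zero, mul_pow]
  have : Real.cos ((n : ℝ) * Real.pi) ^ 2 = 1 := by
    nlinarith [Real.sin_sq_add_cos_sq ((n : ℝ) * Real.pi), Real.sin_int_mul_pi n]
  rw [this, one_mul]

theorem sq_eval_T (j : ℕ) {t : ℝ} (ht : |t| ≤ 1) :
    ((Chebyshev.T ℝ ((2 * j + 1 : ℕ) : ℤ)).eval t) ^ 2
      = Real.sin ((2 * j + 1 : ℕ) * Real.arcsin t) ^ 2 := by
  obtain ⟨h1, h2⟩ := abs_le.1 ht
  conv_lhs => rw [← Real.cos_arccos h1 h2, Chebyshev.T_real_cos, Real.arccos_eq_pi_div_two_sub_arcsin]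
  push_cast
  rw [mul_sub, Real.cos_sub]
  have hc : Real.cos ((2 * (j : ℝ) + 1) * (Real.pi / 2)) = 0 :=
    Real.cos_eq_zero_iff.2 ⟨j, by push_cast; ring⟩
  have hs : Real.sin ((2 * (j : ℝ) + 1) * (Real.pi / 2)) ^ 2 = 1 := by
    have := Real.sin_sq_add_cos_sq ((2 * (j : ℝ) + 1) * (Real.pi / 2))
    rw [hc] at this; linarith
  rw [hc, zero_mul, zero_add, mul_pow, hs, one_mul]

/-- A normalised smoothed sign. -/
theorem exists_sign_poly (j : ℕ) : ∃ F : ℝ[X], F.natDegree ≤ 4 * j + 1 ∧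
    ∀ y : ℝ, |y| ≤ 1 → |F.eval y| ≤ 1 ∧ |y| - 3 / (2 * j + 1 : ℕ) ≤ y * F.eval y := by
  obtain ⟨k, hk⟩ : ∃ k : ℕ, k = 2 * j + 1 := ⟨_, rfl⟩
  rw [← hk]
  have hk0 : (0 : ℝ) < k := by exact_mod_cast (by omega : 0 < k)
  have hk1 : (1 : ℝ) ≤ k := by exact_mod_cast (by omega : 1 ≤ k)
  set Tp := Chebyshev.T ℝ (k : ℤ) with hTp
  have hT : ∀ t : ℝ, |t| ≤ 1 → Tp.eval t ^ 2 = Real.sin (k * Real.arcsin t) ^ 2 := by
    intro t ht; rw [hTp, hk]; exact sq_eval_T j ht
  have hT0 : Tp.eval 0 = 0 := by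
    have := hT 0 (by simp)
    simpa using this
  have hdvd : X * Tp.divX = Tp := by
    have := X_mul_divX_add Tp
    rw [coeff_zero_eq_eval_zero, hT0, C_0, add_zero] at this
    exact this
  have hqt : ∀ t : ℝ, t * Tp.divX.eval t = Tp.eval t := fun t => by
    conv_rhs => rw [← hdvd]
    simp
  set K : ℝ[X] := C (1 / (k : ℝ) ^ 2) * Tp.divX ^ 2 with hK
  obtain ⟨P, hPd, hP0, hP'⟩ := exists_antideriv K
  have hKeval : ∀ t, K.eval t = Tp.divX.eval t ^ 2 / (k : ℝ) ^ 2 := fun t => by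
    simp [hK]; ring
  have hd : ∀ t, HasDerivAt (fun x => P.eval x) (Tp.divX.eval t ^ 2 / (k : ℝ) ^ 2) t := fun t => by
    have := P.hasDerivAt t
    rwa [hP', hKeval] at this
  have hmono : Monotone fun x => P.eval x :=
    monotone_of_hasDerivAt_nonneg hd fun t => by positivity
  -- the kernel is at most 1/(k t)^2
  have hup : ∀ t : ℝ, 0 < t → t ≤ 1 → Tp.divX.eval t ^ 2 / (k : ℝ) ^ 2 ≤ 1 / ((k : ℝ) ^ 2 * t ^ 2) := by
    intro t h0 h1
    have hs := hT t (abs_le.2 ⟨by linarith, h1⟩)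
    rw [← hqt, mul_pow] at hs
    rw [div_le_div_iff₀ (by positivity) (by positivity)]
    calc Tp.divX.eval t ^ 2 * ((k : ℝ) ^ 2 * t ^ 2)
        = (k : ℝ) ^ 2 * (t ^ 2 * Tp.divX.eval t ^ 2) := by ring
      _ ≤ (k : ℝ) ^ 2 * 1 := by
          rw [hs]; exact mul_le_mul_of_nonneg_left (Real.sin_sq_le_one _) (by positivity)
      _ = _ := by ring
  -- and at least 4/pi^2 on [0, 1/k]
  have hlow : ∀ t : ℝ, 0 < t → t ≤ 1 / k → 4 / Real.pi ^ 2 ≤ Tp.divX.eval t ^ 2 / (k : ℝ) ^ 2 := by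
    intro t h0 h1
    have ht1 : t ≤ 1 := h1.trans (by rw [div_le_one hk0]; exact hk1)
    have hs := hT t (abs_le.2 ⟨by linarith, ht1⟩)
    rw [← hqt, mul_pow] at hs
    set φ := Real.arcsin t
    have hsin : Real.sin φ = t := Real.sin_arcsin (by linarith) ht1
    have hφ0 : 0 ≤ φ := Real.arcsin_nonneg.2 h0.le
    have hφ1 : φ ≤ Real.pi / 2 := Real.arcsin_le_pi_div_two t
    have hj1 := Real.mul_le_sin hφ0 hφ1
    rw [hsin] at hj1
    have hkφ : (k : ℝ) * φ ≤ Real.pi / 2 := by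
      have : (k : ℝ) * (2 / Real.pi * φ) ≤ 1 := by
        calc (k : ℝ) * (2 / Real.pi * φ) ≤ k * (1 / k) :=
              mul_le_mul_of_nonneg_left (hj1.trans h1) hk0.le
          _ = 1 := by field_simp
      rw [← mul_assoc, mul_comm (k : ℝ) (2 / Real.pi), mul_assoc, div_mul_eq_mul_div,
        div_le_one Real.pi_pos] at this
      linarith
    have hj2 := Real.mul_le_sin (mul_nonneg hk0.le hφ0) hkφ
    have hst : Real.sin φ ≤ φ := Real.sin_le hφ0
    rw [hsin] at hst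
    have h3 : 2 / Real.pi * (k * t) ≤ Real.sin (k * φ) := by
      refine le_trans ?_ hj2
      have := Real.pi_pos
      gcongr
    have h4 := pow_le_pow_left₀ (by positivity) h3 2
    rw [← hs, mul_pow, div_pow, mul_pow] at h4
    rw [le_div_iff₀ (by positivity : (0 : ℝ) < (k : ℝ) ^ 2)]
    refine le_of_mul_le_mul_left ?_ (by positivity : (0 : ℝ) < t ^ 2)
    linarith
  have hA1 : 4 / Real.pi ^ 2 / k ≤ P.eval 1 := by
    have h1 : ∀ t ∈ interior (Set.Icc (0 : ℝ) (1 / k)), 4 / Real.pi ^ 2 ≤ deriv (fun x => P.eval x) t := by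
      intro t ht
      rw [interior_Icc] at ht
      rw [(hd t).deriv]; exact hlow t ht.1 ht.2.le
    have := (convex_Icc (0 : ℝ) (1 / k)).mul_sub_le_image_sub_of_le_deriv
      P.continuous.continuousOn P.differentiable.differentiableOn h1 0
      (Set.left_mem_Icc.2 (by positivity)) (1 / k) (Set.right_mem_Icc.2 (by positivity)) (by positivity)
    rw [hP0, sub_zero, sub_zero, mul_one_div] at this
    exact this.trans (hmono (by rw [div_le_one hk0]; exact hk1))
  have hA0 : 0 < P.eval 1 := lt_of_lt_of_le (by have := Real.pi_pos; positivity) hA1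
  have htail : ∀ y : ℝ, 0 < y → y ≤ 1 → P.eval 1 - P.eval y ≤ 1 / ((k : ℝ) ^ 2 * y) := by
    intro y h0 h1
    have hanti : AntitoneOn (fun t => P.eval t + 1 / (k : ℝ) ^ 2 * t⁻¹) (Set.Icc y 1) := by
      have hder : ∀ t ∈ Set.Icc y 1, HasDerivAt (fun t => P.eval t + 1 / (k : ℝ) ^ 2 * t⁻¹)
          (Tp.divX.eval t ^ 2 / (k : ℝ) ^ 2 + 1 / (k : ℝ) ^ 2 * -(t ^ 2)⁻¹) t := fun t ht =>
        (hd t).add ((hasDerivAt_inv (by linarith [ht.1] : t ≠ 0)).const_mul _)
      refine antitoneOn_of_deriv_nonpos (convex_Icc _ _)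
        (fun t ht => (hder t ht).continuousAt.continuousWithinAt)
        (fun t ht => (hder t (interior_subset ht)).differentiableAt.differentiableWithinAt)
        fun t ht => ?_
      rw [(hder t (interior_subset ht)).deriv]
      rw [interior_Icc] at ht
      have := hup t (by linarith [ht.1]) ht.2.le
      have e : 1 / (k : ℝ) ^ 2 * -(t ^ 2)⁻¹ = -(1 / ((k : ℝ) ^ 2 * t ^ 2)) := by
        rw [mul_neg, one_div, one_div, mul_inv]
      linarith
    have := hanti (Set.left_mem_Icc.2 h1) (Set.right_mem_Icc.2 h1) h1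
    simp only [inv_one, mul_one] at this
    have e : 1 / (k : ℝ) ^ 2 * y⁻¹ = 1 / ((k : ℝ) ^ 2 * y) := by rw [one_div, one_div, mul_inv]
    have : (0 : ℝ) ≤ 1 / (k : ℝ) ^ 2 := by positivity
    linarith
  have hodd : ∀ y : ℝ, |y| ≤ 1 → P.eval (-y) = -P.eval y := by
    have hev : ∀ t : ℝ, |t| ≤ 1 → Tp.divX.eval (-t) ^ 2 = Tp.divX.eval t ^ 2 := by
      intro t ht
      by_cases h0 : t = 0
      · simp [h0]
      · refine mul_left_cancel₀ (pow_ne_zero 2 h0) ?_
        rw [← mul_pow, ← mul_pow, hqt, ← neg_sq (t * _), ← neg_mul, hqt, hTp]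
        exact sq_eval_neg _ ht
    intro y hy
    have hconst : ∀ x ∈ Set.Icc (-1 : ℝ) 1, P.eval x + P.eval (-x) = P.eval (-1) + P.eval (- -1) := by
      have hcomp : ∀ x, HasDerivAt (fun x => P.eval x + P.eval (-x))
          (Tp.divX.eval x ^ 2 / (k : ℝ) ^ 2 + Tp.divX.eval (-x) ^ 2 / (k : ℝ) ^ 2 * -1) x :=
        fun x => (hd x).add ((hd (-x)).comp x (hasDerivAt_neg x))
      refine constant_of_has_deriv_right_zero (fun x _ => (hcomp x).continuousAt.continuousWithinAt)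
        fun x hx => ?_
      have h := (hcomp x).hasDerivWithinAt (s := Set.Ici x)
      rw [hev x (abs_le.2 ⟨hx.1, hx.2.le⟩), mul_neg_one, add_neg_cancel] at h
      exact h
    have h0 := hconst 0 ⟨by norm_num, by norm_num⟩
    rw [neg_zero, hP0] at h0
    have := hconst y (abs_le.1 hy)
    linarith
  refine ⟨C (1 / P.eval 1) * P, ?_, fun y hy => ?_⟩
  · refine (natDegree_C_mul_le _ _).trans (hPd.trans ?_)
    have h1 : K.natDegree ≤ 2 * Tp.divX.natDegree := (natDegree_C_mul_le _ _).trans natDegree_pow_le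
    rw [natDegree_divX_eq_natDegree_tsub_one, hTp, Chebyshev.natDegree_T, Int.natAbs_natCast] at h1
    omega
  · simp only [eval_mul, eval_C, one_div_mul_eq_div]
    have hpos : ∀ y : ℝ, 0 ≤ y → y ≤ 1 → |P.eval y / P.eval 1| ≤ 1 ∧
        y - 3 / k ≤ y * (P.eval y / P.eval 1) := by
      intro y h0 h1
      have hy0 : 0 ≤ P.eval y := hP0 ▸ hmono h0
      have hy1 : P.eval y ≤ P.eval 1 := hmono h1
      refine ⟨by rw [abs_of_nonneg (by positivity), div_le_one hA0]; exact hy1, ?_⟩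
      rcases h0.eq_or_lt with rfl | h0
      · simp [hP0]; positivity
      have h2 := htail y h0 h1
      have h3 : (P.eval 1 - P.eval y) * y ≤ 1 / (k : ℝ) ^ 2 := by
        refine (mul_le_mul_of_nonneg_right h2 h0.le).trans (le_of_eq ?_)
        field_simp
      have h4 : (P.eval 1 - P.eval y) * y / P.eval 1 ≤ 3 / k := by
        rw [div_le_div_iff₀ hA0 hk0]
        have h5 : 1 / (k : ℝ) ^ 2 * k ≤ 3 * (4 / Real.pi ^ 2 / k) := by
          have h7 : Real.pi ^ 2 ≤ 12 := by nlinarith [Real.pi_lt_d2, Real.pi_pos]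
          have h8 : 1 ≤ 12 / Real.pi ^ 2 := (one_le_div₀ (by positivity)).2 h7
          calc 1 / (k : ℝ) ^ 2 * k = 1 / k := by field_simp
            _ ≤ (12 / Real.pi ^ 2) / k := by gcongr
            _ = _ := by ring
        calc (P.eval 1 - P.eval y) * y * k ≤ 1 / (k : ℝ) ^ 2 * k :=
              mul_le_mul_of_nonneg_right h3 hk0.le
          _ ≤ 3 * (4 / Real.pi ^ 2 / k) := h5
          _ ≤ 3 * P.eval 1 := by linarith
      have h6 : (P.eval 1 - P.eval y) * y / P.eval 1 = y - y * (P.eval y / P.eval 1) := by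
        field_simp
      linarith
    rcases le_or_gt 0 y with h | h
    · rw [abs_of_nonneg h] at hy ⊢; exact hpos y h hy
    · have hy' : |-y| ≤ 1 := by rwa [abs_neg]
      rw [abs_of_neg h] at hy ⊢
      have := hpos (-y) (by linarith) hy
      rw [hodd y (abs_le.2 ⟨by linarith, by linarith⟩), neg_div, abs_neg, neg_mul_neg] at this
      exact this

/-- Rounding of the Newton series. -/
theorem quantised_sign (R d l : ℕ) (e : ℝ) (hd : 3 ≤ d) (he : 0 < e) (he' : e ≤ 1/4)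
    (h : ((∑ i ∈ Finset.range (d+1), (2*R).choose i : ℕ) : ℝ) ≤ e * 2^l) :
    ∃ (W : ℤ → ℤ) (p : Polynomial ℝ), p.natDegree ≤ d ∧ ∀ s : ℤ, |s| ≤ R →
      0 ≤ W s ∧ W s ≤ 2^l ∧ p.eval (s:ℝ) = W s ∧
      (1-3*e)*|(s:ℝ)| - 20*R/d ≤ (s:ℝ) * (2 * (W s:ℝ)/2^l - 1) := by
  classical
  obtain ⟨j, hj⟩ : ∃ j, j = (d - 1) / 4 := ⟨_, rfl⟩
  obtain ⟨F, hFd, hF⟩ := exists_sign_poly j
  set Gp : ℝ[X] := C ((2 : ℝ) ^ l) * (C (1 / 2) + C ((1 - 2 * e) / 2) *
    F.comp (C (1 / (R : ℝ)) * (X - C (R : ℝ)))) with hGp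
  have hGd : Gp.natDegree ≤ d := by
    refine (natDegree_C_mul_le _ _).trans ((natDegree_add_le _ _).trans (max_le (by simp) ?_))
    refine (natDegree_C_mul_le _ _).trans (natDegree_comp_le.trans ?_)
    have h1 : (C (1 / (R : ℝ)) * (X - C (R : ℝ))).natDegree ≤ 1 :=
      (natDegree_C_mul_le _ _).trans (le_of_eq (natDegree_X_sub_C _))
    exact (Nat.mul_le_mul hFd h1).trans (by omega)
  set b : ℕ → ℝ := fun i => (fwdDiff (1 : ℝ))^[i] (fun x => Gp.eval x) 0
  set W : ℤ → ℤ := fun s => ∑ i ∈ range (d + 1), round (b i) * ((s + R).toNat.choose i : ℤ)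
  set p : ℝ[X] := ∑ i ∈ range (d + 1), C ((round (b i) : ℝ) / i.factorial) *
    (descPochhammer ℝ i).comp (X + C (R : ℝ)) with hp
  refine ⟨W, p, ?_, fun s hs => ?_⟩
  · refine natDegree_sum_le_of_forall_le _ _ fun i hi => ?_
    refine (natDegree_C_mul_le _ _).trans (natDegree_comp_le.trans ?_)
    rw [descPochhammer_natDegree, natDegree_X_add_C, mul_one]
    have := mem_range.1 hi; omega
  obtain ⟨n, hn⟩ : ∃ n : ℕ, (n : ℤ) = s + R :=
    ⟨(s + R).toNat, Int.toNat_of_nonneg (by linarith [(abs_le.1 hs).1])⟩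
  have hn2 : n ≤ 2 * R := by have := (abs_le.1 hs).2; omega
  have hnR : (n : ℝ) = (s : ℝ) + R := by exact_mod_cast hn
  have htn : (s + R).toNat = n := by omega
  have hWn : (W s : ℝ) = ∑ i ∈ range (d + 1), (round (b i) : ℝ) * (n.choose i : ℝ) := by
    simp only [W, htn]; push_cast; rfl
  have hpW : p.eval (s : ℝ) = W s := by
    rw [hWn, hp, eval_finsetSum]
    refine sum_congr rfl fun i _ => ?_
    rw [eval_mul, eval_C, eval_comp, eval_add, eval_X, eval_C, ← hnR,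
      Nat.cast_choose_eq_descPochhammer_div]
    ring
  -- Newton series of the target
  have hG : Gp.eval (n : ℝ) = ∑ i ∈ range (d + 1), b i * (n.choose i : ℝ) := by
    have h1 := shift_eq_sum_fwdDiff_iter (1 : ℝ) (fun x => Gp.eval x) n 0
    simp only [nsmul_eq_mul, mul_one, zero_add] at h1
    rw [h1]
    have h2 : ∀ i, d < i → b i = 0 := fun i hi => by
      simp [b, Polynomial.fwdDiff_iter_eq_zero_of_degree_lt (P := Gp) (by omega : Gp.natDegree < i)]
    rcases le_or_gt n d with hnd | hnd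
    · rw [← sum_subset (range_subset_range.2 (by omega : n + 1 ≤ d + 1))
        (f := fun i => b i * (n.choose i : ℝ))]
      · exact sum_congr rfl fun i _ => mul_comm _ _
      · intro i _ hi
        simp only [mem_range, not_lt] at hi
        simp [Nat.choose_eq_zero_of_lt (by omega : n < i)]
    · rw [sum_subset (range_subset_range.2 (by omega : d + 1 ≤ n + 1))
        (f := fun i => b i * (n.choose i : ℝ))]
      · exact sum_congr rfl fun i _ => mul_comm _ _
      · intro i _ hi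
        simp only [mem_range, not_lt] at hi
        simp [h2 i (by omega)]
  have herr : |(W s : ℝ) - Gp.eval (n : ℝ)| ≤ e * 2 ^ l / 2 := by
    rw [hWn, hG, ← sum_sub_distrib]
    refine (abs_sum_le_sum_abs _ _).trans ?_
    calc ∑ i ∈ range (d + 1), |(round (b i) : ℝ) * (n.choose i : ℝ) - b i * (n.choose i : ℝ)|
        ≤ ∑ i ∈ range (d + 1), (1 / 2 : ℝ) * ((2 * R).choose i : ℝ) := by
          refine sum_le_sum fun i _ => ?_
          rw [← sub_mul, abs_mul, Nat.abs_cast, abs_sub_comm]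
          exact mul_le_mul (abs_sub_round _) (by exact_mod_cast Nat.choose_le_choose i hn2)
            (by positivity) (by norm_num)
      _ = 1 / 2 * ((∑ i ∈ range (d + 1), (2 * R).choose i : ℕ) : ℝ) := by push_cast; rw [mul_sum]
      _ ≤ _ := by linarith
  set y : ℝ := (s : ℝ) / R with hy
  have hy1 : |y| ≤ 1 := by
    rw [hy, abs_div, Nat.abs_cast]
    exact div_le_one_of_le₀ (by rw [← Int.cast_abs]; exact_mod_cast hs) (by positivity)
  obtain ⟨hFb, hFy⟩ := hF y hy1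
  have hGe : Gp.eval (n : ℝ) = 2 ^ l * (1 / 2 + (1 - 2 * e) / 2 * F.eval y) := by
    simp [hGp, hy, hnR]
    left
    ring_nf
  have h2l : (0 : ℝ) < 2 ^ l := by positivity
  rw [hGe] at herr
  obtain ⟨e1, e2⟩ := abs_le.1 herr
  obtain ⟨f1, f2⟩ := abs_le.1 hFb
  have hW0 : (0 : ℝ) ≤ W s := by
    nlinarith [mul_nonneg (mul_nonneg h2l.le (by linarith : (0 : ℝ) ≤ 1 - 2 * e))
      (by linarith : (0 : ℝ) ≤ 1 + F.eval y)]
  have hW1 : (W s : ℝ) ≤ 2 ^ l := by
    nlinarith [mul_nonneg (mul_nonneg h2l.le (by linarith : (0 : ℝ) ≤ 1 - 2 * e))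
      (by linarith : (0 : ℝ) ≤ 1 - F.eval y)]
  refine ⟨by exact_mod_cast hW0, by exact_mod_cast hW1, hpW, ?_⟩
  set Q : ℝ := 2 * (W s : ℝ) / 2 ^ l - 1 with hQ
  have hQb : |Q - (1 - 2 * e) * F.eval y| ≤ e := by
    have : Q - (1 - 2 * e) * F.eval y
        = 2 / 2 ^ l * ((W s : ℝ) - 2 ^ l * (1 / 2 + (1 - 2 * e) / 2 * F.eval y)) := by
      rw [hQ]; field_simp; ring
    rw [this, abs_mul, abs_of_pos (by positivity : (0 : ℝ) < 2 / 2 ^ l)]
    calc 2 / 2 ^ l * |(W s : ℝ) - 2 ^ l * (1 / 2 + (1 - 2 * e) / 2 * F.eval y)|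
        ≤ 2 / 2 ^ l * (e * 2 ^ l / 2) := mul_le_mul_of_nonneg_left herr (by positivity)
      _ = e := by field_simp
  have hsQ : (1 - 2 * e) * ((s : ℝ) * F.eval y) - e * |(s : ℝ)| ≤ (s : ℝ) * Q := by
    have h1 : |(s : ℝ) * (Q - (1 - 2 * e) * F.eval y)| ≤ |(s : ℝ)| * e := by
      rw [abs_mul]; exact mul_le_mul_of_nonneg_left hQb (abs_nonneg _)
    have h2 := (abs_le.1 h1).1
    linarith
  have hsF : |(s : ℝ)| - 20 * R / d ≤ (s : ℝ) * F.eval y := by
    rcases Nat.eq_zero_or_pos R with hR | hR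
    · subst hR
      have : s = 0 := abs_nonpos_iff.1 (by simpa using hs)
      simp [this]
    · have hR' : (0 : ℝ) < R := by exact_mod_cast hR
      have h1 := mul_le_mul_of_nonneg_left hFy hR'.le
      rw [hy, mul_sub, abs_div, Nat.abs_cast] at h1
      have h2 : (R : ℝ) * (|(s : ℝ)| / R) = |(s : ℝ)| := by field_simp
      have h3 : (R : ℝ) * ((s : ℝ) / R * F.eval ((s : ℝ) / R)) = (s : ℝ) * F.eval y := by
        rw [hy]; field_simp
      have h4 : (R : ℝ) * (3 / (2 * j + 1 : ℕ)) ≤ 20 * R / d := by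
        rw [mul_div, div_le_div_iff₀ (by positivity) (by exact_mod_cast (by omega : 0 < d))]
        have : (d : ℝ) ≤ 6 * (2 * j + 1 : ℕ) := by exact_mod_cast (by omega : d ≤ 6 * (2 * j + 1))
        nlinarith [mul_le_mul_of_nonneg_left this hR'.le]
      rw [h2, h3] at h1
      linarith
  have hband : (0 : ℝ) ≤ 20 * R / d := by positivity
  nlinarith [mul_le_mul_of_nonneg_left hsF (by linarith : (0 : ℝ) ≤ 1 - 2 * e),
    mul_nonneg he.le hband, abs_nonneg (s : ℝ)]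

end Vale.Agent.P047
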