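import Vale.Agent.P047.Defs

/-!
# Mean absolute value of a simple random walk
-/

namespace Vale.Agent.P047

open Finset Real

lemma walk_telescope (n : ℕ) : ∀ a, ∑ j ∈ range a, ((n : ℝ) - 2 * j) * n.choose j = a * n.choose a
  | 0 => by simp
  | a + 1 => by
    rw [sum_range_succ, walk_telescope n a]
    have h : (n.choose (a + 1) : ℝ) * (a + 1) = n.choose a * ((n : ℝ) - a) := by
      rcases le_or_gt a n with ha | ha
      · have := Nat.choose_succ_right_eq n a
        rw [← Nat.cast_sub ha]
        exact_mod_cast this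
      · simp [Nat.choose_eq_zero_of_lt ha, Nat.choose_eq_zero_of_lt (Nat.lt_succ_of_lt ha)]
    push_cast
    linarith

lemma walk_binomial (m : ℕ) :
    ∑ j ∈ range (2 * m + 1), ((2 * m).choose j : ℝ) * |2 * (j : ℝ) - 2 * m| =
      2 * m * (2 * m).choose m := by
  have hlow := walk_telescope (2 * m) m
  have hall := walk_telescope (2 * m) (2 * m + 1)
  rw [Nat.choose_eq_zero_of_lt (show 2 * m < 2 * m + 1 by omega), Nat.cast_zero, mul_zero,
    ← sum_range_add_sum_Ico _ (show m ≤ 2 * m + 1 by omega), hlow] at hall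
  push_cast at hall hlow
  rw [← sum_range_add_sum_Ico _ (show m ≤ 2 * m + 1 by omega)]
  have e1 : ∑ j ∈ range m, ((2 * m).choose j : ℝ) * |2 * (j : ℝ) - 2 * m| =
      ∑ j ∈ range m, (2 * (m : ℝ) - 2 * j) * (2 * m).choose j := by
    refine sum_congr rfl fun j hj => ?_
    have : (j : ℝ) ≤ m := by exact_mod_cast (mem_range.1 hj).le
    rw [abs_of_nonpos (by linarith)]
    ring
  have e2 : ∑ j ∈ Ico m (2 * m + 1), ((2 * m).choose j : ℝ) * |2 * (j : ℝ) - 2 * m| =
      -∑ j ∈ Ico m (2 * m + 1), (2 * (m : ℝ) - 2 * j) * (2 * m).choose j := by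
    rw [← sum_neg_distrib]
    refine sum_congr rfl fun j hj => ?_
    have : (m : ℝ) ≤ j := by exact_mod_cast (mem_Ico.1 hj).1
    rw [abs_of_nonneg (by linarith)]
    ring
  rw [e1, e2, hlow]
  linarith

/-- The central binomial coefficient, from below. -/
lemma central_choose_ge (m : ℕ) :
    (4 : ℝ) ^ m / √(π * (m + 1 / 2)) ≤ ((2 * m).choose m : ℝ) := by
  have hW := Real.Wallis.W_le m
  have hC : ((2 * m).choose m : ℝ) * ((m.factorial : ℝ) * m.factorial) = (2 * m).factorial := by
    have := Nat.choose_mul_factorial_mul_factorial (show m ≤ 2 * m by omega)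
    rw [show 2 * m - m = m by omega] at this
    rw [← mul_assoc]
    exact_mod_cast this
  have hpos : (0 : ℝ) < (2 * m).choose m := by exact_mod_cast Nat.choose_pos (by omega)
  rw [Real.Wallis.W_eq_factorial_ratio, ← hC, div_le_iff₀ (by positivity)] at hW
  have hf : (0 : ℝ) < (m.factorial : ℝ) ^ 4 := by positivity
  have h2 : ((4 : ℝ) ^ m) ^ 2 ≤ π * (m + 1 / 2) * ((2 * m).choose m : ℝ) ^ 2 := by
    refine le_of_mul_le_mul_right ?_ hf
    rw [← pow_mul, mul_comm m 2, pow_mul, show (4 : ℝ) ^ 2 = 2 ^ 4 by norm_num, ← pow_mul]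
    linear_combination hW
  rw [div_le_iff₀ (Real.sqrt_pos.2 (by positivity))]
  refine le_of_sq_le_sq ?_ (by positivity)
  rw [mul_pow, Real.sq_sqrt (by positivity)]
  linarith

/-- The mean of a function of the number of heads among the coordinates in `Γ`. -/
lemma cubeAvg_count {ι : Type*} [Fintype ι] [DecidableEq ι] (Γ : Finset ι) (g : ℕ → ℝ) :
    cubeAvg (fun x : ι → Bool => g (Γ.filter fun i => x i = true).card) =
      (∑ j ∈ range (Γ.card + 1), (Γ.card.choose j : ℝ) * g j) / 2 ^ Γ.card := by
  have hsum : ∑ x : ι → Bool, g (Γ.filter fun i => x i = true).card =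
      2 ^ (Fintype.card ι - Γ.card) * ∑ S ∈ Γ.powerset, g S.card := by
    rw [← sum_fiberwise_of_maps_to (t := Γ.powerset)
      (g := fun x : ι → Bool => Γ.filter fun i => x i = true)
      (fun x _ => mem_powerset.2 (filter_subset _ _)), mul_sum]
    refine sum_congr rfl fun S hS => ?_
    rw [sum_congr rfl fun x hx => congrArg (fun T : Finset ι => g T.card) (mem_filter.1 hx).2,
      sum_const, nsmul_eq_mul]
    congr 1
    have hS' := mem_powerset.1 hS
    have hset : (univ.filter fun x : ι → Bool => Γ.filter (fun i => x i = true) = S) =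
        Fintype.piFinset fun i => if i ∈ Γ then {decide (i ∈ S)} else (univ : Finset Bool) := by
      ext x
      simp only [mem_filter, mem_univ, true_and, Fintype.mem_piFinset, Finset.ext_iff]
      refine ⟨fun h i => ?_, fun h i => ?_⟩
      · have := h i
        split_ifs with hi
        · simp only [mem_singleton]
          simp only [hi, true_and] at this
          rw [Bool.eq_iff_iff, decide_eq_true_iff]
          exact this
        · exact mem_univ _
      · have := h i
        by_cases hi : i ∈ Γ
        · simp only [hi, if_true, mem_singleton] at this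
          simp [hi, this]
        · simp only [hi, false_and, false_iff]
          exact fun h' => hi (hS' h')
    rw [hset, Fintype.card_piFinset]
    simp only [apply_ite Finset.card, card_singleton, card_univ, Fintype.card_bool, prod_ite,
      prod_const, one_pow, one_mul, Nat.cast_pow, Nat.cast_ofNat]
    rw [← card_compl]
    congr 2
    ext i
    simp
  rw [cubeAvg, hsum, sum_powerset_apply_card (fun j => g j)]
  simp only [nsmul_eq_mul]
  rw [← Nat.add_sub_cancel' (card_le_univ Γ), pow_add,
    Nat.add_sub_cancel' (card_le_univ Γ)]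
  field_simp

/-- The walk of `2m` steps has mean absolute value at least `2m/√(π(m+1/2))`. -/
theorem walk_lower {ι : Type*} [Fintype ι] [DecidableEq ι] (Γ : Finset ι) (m : ℕ)
    (h : Γ.card = 2 * m) :
    2 * (m : ℝ) / Real.sqrt (Real.pi * (m + 1 / 2)) ≤
      cubeAvg (fun x : ι → Bool => |∑ i ∈ Γ, spin (x i)|) := by
  have e : (fun x : ι → Bool => |∑ i ∈ Γ, spin (x i)|) =
      fun x => |2 * ((Γ.filter fun i => x i = true).card : ℝ) - 2 * m| := by
    funext x
    congr 1
    have : ∀ b, spin b = 2 * (if b = true then (1 : ℝ) else 0) - 1 := fun b => by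
      cases b <;> norm_num [spin]
    simp only [this, sum_sub_distrib, ← mul_sum, sum_boole, sum_const, h, nsmul_eq_mul, mul_one]
    push_cast
    ring
  rw [e, cubeAvg_count Γ (fun j => |2 * (j : ℝ) - 2 * m|), h, walk_binomial,
    le_div_iff₀ (by positivity), pow_mul, show (2 : ℝ) ^ 2 = 4 by norm_num, div_mul_eq_mul_div,
    mul_div_assoc]
  exact mul_le_mul_of_nonneg_left (central_choose_ge m) (by positivity)

end Vale.Agent.P047
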