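import Vale.Agent.P047.Moments
import Vale.Agent.P047.Code
import Vale.Agent.P047.Poly
import Vale.Agent.P047.Walk

/-!
Choice of the parameters: a Boolean function with linear sum above the root of its degree.
-/

namespace Vale.Agent.P047

open Finset Filter Topology

theorem tail_count (u : ℕ) :
    ((univ.filter fun S : Finset (Fin (20 * u)) => S = ∅ ∨ 11 * u < S.card).card : ℝ)
      ≤ 2 * ((20 / 9 : ℝ) ^ 20 / (11 / 9) ^ 11) ^ u := by
  set ρ : ℝ := (20 / 9 : ℝ) ^ 20 / (11 / 9) ^ 11 with hρ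
  set P := univ.filter fun S : Finset (Fin (20 * u)) => 11 * u < S.card
  have h1 : (1 : ℝ) ≤ ρ ^ u := one_le_pow₀ (by rw [hρ]; norm_num)
  have h2 : (P.card : ℝ) ≤ ρ ^ u := by
    have : (P.card : ℝ) * (11 / 9) ^ (11 * u) ≤ (20 / 9) ^ (20 * u) := by
      calc (P.card : ℝ) * (11 / 9) ^ (11 * u) = ∑ _S ∈ P, (11 / 9 : ℝ) ^ (11 * u) := by simp
        _ ≤ ∑ S ∈ P, (11 / 9 : ℝ) ^ S.card :=
            sum_le_sum fun S hS => pow_le_pow_right₀ (by norm_num) (mem_filter.1 hS).2.le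
        _ ≤ ∑ S : Finset (Fin (20 * u)), (11 / 9 : ℝ) ^ S.card :=
            sum_le_univ_sum_of_nonneg fun S => by positivity
        _ = (20 / 9) ^ (20 * u) := by
            have := Fintype.sum_pow_mul_eq_add_pow (Fin (20 * u)) (11 / 9 : ℝ) 1
            simp only [one_pow, mul_one, Fintype.card_fin] at this
            rw [this]
            norm_num
    rw [hρ, div_pow, ← pow_mul, ← pow_mul, le_div_iff₀ (by positivity)]
    exact this
  have h3 : (univ.filter fun S : Finset (Fin (20 * u)) => S = ∅ ∨ 11 * u < S.card).card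
      ≤ P.card + 1 := by
    rw [filter_or]
    refine (card_union_le _ _).trans ?_
    rw [filter_eq', if_pos (mem_univ _), card_singleton, add_comm]
  calc ((univ.filter fun S : Finset (Fin (20 * u)) => S = ∅ ∨ 11 * u < S.card).card : ℝ)
      ≤ (P.card : ℝ) + 1 := by exact_mod_cast h3
    _ ≤ 2 * ρ ^ u := by linarith

/-- A block length for which the leftover points are negligible. -/
theorem exists_u (k G lo : ℕ) (δ : ℝ) (hδ : 0 < δ) :
    ∃ u, lo ≤ u ∧ 1 ≤ u ∧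
      (20 * u : ℕ) * (G : ℝ) * ((2 * (64 * (2 ^ k) ^ 2 * (20 * u + 1) ^ 2 *
        (((univ.filter fun S : Finset (Fin (20 * u)) => S = ∅ ∨ 11 * u < S.card).card *
          (2 * (20 * u) + 1) + 1) * (20 * u + 2))) : ℕ) / 2 ^ (20 * u) : ℝ) ≤ δ := by
  set ρ : ℝ := (20 / 9 : ℝ) ^ 20 / (11 / 9) ^ 11 with hρ
  set r : ℝ := ρ / 2 ^ 20 with hr
  have hr0 : 0 ≤ r := by positivity
  have hr1 : r < 1 := by rw [hr, hρ]; norm_num
  obtain ⟨C, hC⟩ : ∃ C : ℝ, C = 20 * (G : ℝ) * (2 * 64 * ((2 : ℝ) ^ k) ^ 2 * 21 ^ 2 * 100 * 22) :=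
    ⟨_, rfl⟩
  have ht : Tendsto (fun u : ℕ => C * ((u : ℝ) ^ 5 * r ^ u)) atTop (𝓝 0) := by
    simpa using (tendsto_pow_const_mul_const_pow_of_abs_lt_one 5
      (by rwa [abs_of_nonneg hr0])).const_mul C
  obtain ⟨u, hu, hlo⟩ := ((ht.eventually (Iic_mem_nhds hδ)).and (eventually_ge_atTop (max lo 1))).exists
  refine ⟨u, (le_max_left _ _).trans hlo, (le_max_right _ _).trans hlo, le_trans ?_ hu⟩
  have hu1 : (1 : ℝ) ≤ u := by exact_mod_cast (le_max_right _ _).trans hlo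
  have hc := tail_count u
  rw [← hρ] at hc
  have hρu : (1 : ℝ) ≤ ρ ^ u := one_le_pow₀ (by rw [hρ]; norm_num)
  push_cast
  have hc0 : (0 : ℝ) ≤ ((univ.filter fun S : Finset (Fin (20 * u)) =>
      S = ∅ ∨ 11 * u < S.card).card : ℝ) := Nat.cast_nonneg _
  generalize ((univ.filter fun S : Finset (Fin (20 * u)) => S = ∅ ∨ 11 * u < S.card).card : ℝ) = c
    at hc hc0 ⊢
  have e1 : (20 * (u : ℝ) + 1) ^ 2 ≤ 21 ^ 2 * u ^ 2 := by nlinarith
  have e2 : (c * (2 * (20 * (u : ℝ)) + 1) + 1) ≤ 100 * u * ρ ^ u := by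
    have : c * (2 * (20 * (u : ℝ)) + 1) ≤ 2 * ρ ^ u * (41 * u) :=
      mul_le_mul hc (by linarith) (by positivity) (by positivity)
    nlinarith
  have e3 : (20 * (u : ℝ) + 2) ≤ 22 * u := by linarith
  have e4 : (c * (2 * (20 * (u : ℝ)) + 1) + 1) * (20 * u + 2) ≤ 100 * u * ρ ^ u * (22 * u) :=
    mul_le_mul e2 e3 (by positivity) (by positivity)
  calc 20 * (u : ℝ) * G * (2 * (64 * ((2 : ℝ) ^ k) ^ 2 * (20 * (u : ℝ) + 1) ^ 2 *
        ((c * (2 * (20 * (u : ℝ)) + 1) + 1) * (20 * u + 2))) / 2 ^ (20 * u))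
      ≤ 20 * (u : ℝ) * G * (2 * (64 * ((2 : ℝ) ^ k) ^ 2 * (21 ^ 2 * u ^ 2) *
          (100 * u * ρ ^ u * (22 * u))) / 2 ^ (20 * u)) := by
        gcongr 20 * (u : ℝ) * G * (2 * ?_ / 2 ^ (20 * u))
        refine le_trans ?_ (mul_le_mul_of_nonneg_left e4 (by positivity))
        exact mul_le_mul_of_nonneg_right (mul_le_mul_of_nonneg_left e1 (by positivity))
          (by positivity)
    _ = C * ((u : ℝ) ^ 5 * r ^ u) := by
        rw [hC, hr]
        clear_value ρ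
        rw [div_pow, ← pow_mul (2 : ℝ) 20 u]
        clear hρ hr hc hρu e4 e2 hr1 hr0
        field_simp

end Vale.Agent.P047
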