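import Vale.Agent.P047.Defs

/-!
Functions with prescribed Fourier support.
-/

namespace Vale.Agent.P047

open Finset

variable {ι : Type*}

/-- The span of the monomials in a family. -/
noncomputable def Sp (P : Finset ι → Prop) : Submodule ℝ ((ι → Bool) → ℝ) :=
  Submodule.span ℝ (chi '' {S | P S})

/-- Monomials on the coordinates `Γ`, of size at most `b`, nonempty when `ne` holds. -/
def Lim (Γ : Finset ι) (b : ℕ) (ne : Prop) (S : Finset ι) : Prop :=
  S ⊆ Γ ∧ S.card ≤ b ∧ (ne → S.Nonempty)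

@[simp] theorem spin_mul_self (b : Bool) : spin b * spin b = 1 := by cases b <;> simp [spin]

@[simp] theorem spin_not (b : Bool) : spin (!b) = -spin b := by cases b <;> simp [spin]

theorem spin_abs (b : Bool) : |spin b| = 1 := by cases b <;> simp [spin]

@[simp] theorem chi_empty (x : ι → Bool) : chi ∅ x = 1 := by simp [chi]

@[simp] theorem chi_singleton (i : ι) (x : ι → Bool) : chi {i} x = spin (x i) := by simp [chi]

theorem chi_mem {P : Finset ι → Prop} {S : Finset ι} (h : P S) : chi S ∈ Sp P :=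
  Submodule.subset_span ⟨S, h, rfl⟩

theorem Sp_mono {P Q : Finset ι → Prop} (h : ∀ S, P S → Q S) : Sp P ≤ Sp Q :=
  Submodule.span_mono (Set.image_mono h)

theorem Lim_mono {Γ Γ' : Finset ι} {b b' : ℕ} {ne ne' : Prop} (hΓ : Γ ⊆ Γ') (hb : b ≤ b')
    (hne : ne' → ne) : Sp (Lim Γ b ne) ≤ Sp (Lim Γ' b' ne') :=
  Sp_mono fun _ h => ⟨h.1.trans hΓ, h.2.1.trans hb, fun hn => h.2.2 (hne hn)⟩

theorem one_mem (Γ : Finset ι) (b : ℕ) {ne : Prop} (h : ¬ ne) :
    (fun _ => 1 : (ι → Bool) → ℝ) ∈ Sp (Lim Γ b ne) := by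
  have : (fun _ => 1 : (ι → Bool) → ℝ) = chi ∅ := by funext x; simp
  rw [this]
  exact chi_mem ⟨empty_subset _, by simp, fun hn => absurd hn h⟩

theorem const_mem (Γ : Finset ι) (b : ℕ) {ne : Prop} (h : ¬ ne) (a : ℝ) :
    (fun _ => a : (ι → Bool) → ℝ) ∈ Sp (Lim Γ b ne) := by
  have : (fun _ => a : (ι → Bool) → ℝ) = a • (fun _ => 1 : (ι → Bool) → ℝ) := by funext x; simp
  rw [this]
  exact Submodule.smul_mem _ _ (one_mem Γ b h)

variable [DecidableEq ι]

theorem chi_mul (S T : Finset ι) (x : ι → Bool) : chi S x * chi T x = chi (symmDiff S T) x := by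
  simp only [chi]
  have h1 : ∏ i ∈ S, spin (x i) = (∏ i ∈ S \ T, spin (x i)) * ∏ i ∈ S ∩ T, spin (x i) := by
    rw [← prod_union (disjoint_sdiff_inter S T), sdiff_union_inter]
  have h2 : ∏ i ∈ T, spin (x i) = (∏ i ∈ T \ S, spin (x i)) * ∏ i ∈ S ∩ T, spin (x i) := by
    rw [inter_comm S T, ← prod_union (disjoint_sdiff_inter T S), sdiff_union_inter]
  have h3 : (∏ i ∈ S ∩ T, spin (x i)) * (∏ i ∈ S ∩ T, spin (x i)) = 1 := by
    rw [← prod_mul_distrib]; simp
  rw [h1, h2, symmDiff_def, sup_eq_union, prod_union disjoint_sdiff_sdiff]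
  calc _ = (∏ i ∈ S \ T, spin (x i)) * (∏ i ∈ T \ S, spin (x i)) *
      ((∏ i ∈ S ∩ T, spin (x i)) * (∏ i ∈ S ∩ T, spin (x i))) := by ring
    _ = _ := by rw [h3, mul_one]

theorem Sp_mul_of {P Q R : Finset ι → Prop} (h : ∀ S T, P S → Q T → R (symmDiff S T))
    {f g : (ι → Bool) → ℝ} (hf : f ∈ Sp P) (hg : g ∈ Sp Q) : f * g ∈ Sp R := by
  induction hf using Submodule.span_induction with
  | mem f hf =>
    obtain ⟨S, hS, rfl⟩ := hf
    induction hg using Submodule.span_induction with
    | mem g hg =>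
      obtain ⟨T, hT, rfl⟩ := hg
      have : chi S * chi T = chi (symmDiff S T) := funext fun x => chi_mul S T x
      rw [this]; exact chi_mem (h S T hS hT)
    | zero => simp
    | add _ _ _ _ h1 h2 => rw [mul_add]; exact Submodule.add_mem _ h1 h2
    | smul a _ _ h1 => rw [mul_smul_comm]; exact Submodule.smul_mem _ a h1
  | zero => simp
  | add _ _ _ _ h1 h2 => rw [add_mul]; exact Submodule.add_mem _ h1 h2
  | smul a _ _ h1 => rw [smul_mul_assoc]; exact Submodule.smul_mem _ a h1

/-- Products on disjoint coordinates. -/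
theorem Lim_mul {Γ Δ : Finset ι} (hd : Disjoint Γ Δ) {a b : ℕ} {p q : Prop}
    {f g : (ι → Bool) → ℝ} (hf : f ∈ Sp (Lim Γ a p)) (hg : g ∈ Sp (Lim Δ b q)) :
    f * g ∈ Sp (Lim (Γ ∪ Δ) (a + b) (p ∨ q)) := by
  refine Sp_mul_of (fun S T hS hT => ?_) hf hg
  have hST : Disjoint S T := hd.mono hS.1 hT.1
  rw [hST.symmDiff_eq_sup, sup_eq_union]
  refine ⟨union_subset_union hS.1 hT.1, (card_union_le _ _).trans (add_le_add hS.2.1 hT.2.1), ?_⟩
  rintro (hn | hn)
  · exact (hS.2.2 hn).mono subset_union_left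
  · exact (hT.2.2 hn).mono subset_union_right

/-- Powers may enlarge the monomials only additively. -/
theorem Lim_pow {Γ : Finset ι} {a : ℕ} {f : (ι → Bool) → ℝ}
    (hf : f ∈ Sp (Lim Γ a False)) (j : ℕ) : f ^ j ∈ Sp (Lim Γ (j * a) False) := by
  induction j with
  | zero => rw [pow_zero]; exact one_mem Γ _ not_false
  | succ j ih =>
    rw [pow_succ]
    refine Sp_mul_of (fun S T hS hT => ⟨?_, ?_, False.elim⟩) ih hf
    · exact union_subset_iff.1 (union_subset hS.1 hT.1) |> fun h =>
        (symmDiff_le_sup (a := S) (b := T)).trans (union_subset h.1 h.2)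
    · calc (symmDiff S T).card ≤ (S ∪ T).card := card_le_card symmDiff_le_sup
        _ ≤ S.card + T.card := card_union_le _ _
        _ ≤ j * a + a := add_le_add hS.2.1 hT.2.1
        _ = (j + 1) * a := by ring

variable [Fintype ι]

theorem sum_chi_mul (x y : ι → Bool) :
    ∑ S : Finset ι, chi S x * chi S y = if x = y then 2 ^ Fintype.card ι else 0 := by
  have : ∀ S : Finset ι, chi S x * chi S y = ∏ i ∈ S, spin (x i) * spin (y i) := fun S => by
    rw [chi, chi, prod_mul_distrib]
  simp only [this]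
  rw [← powerset_univ, ← prod_one_add]
  split_ifs with h
  · subst h; norm_num [spin_mul_self]
  · obtain ⟨i, hi⟩ := Function.ne_iff.1 h
    refine prod_eq_zero (mem_univ i) ?_
    cases hx : x i <;> cases hy : y i <;> simp_all [spin]

/-- Every function is the sum of its monomials. -/
theorem fourier_eq (f : (ι → Bool) → ℝ) : f = ∑ S, fhat f S • chi S := by
  funext x
  simp only [Finset.sum_apply, Pi.smul_apply, smul_eq_mul, fhat, cubeAvg, div_mul_eq_mul_div,
    sum_mul, ← sum_div]
  rw [sum_comm]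
  have : ∀ y, ∑ S : Finset ι, f y * chi S y * chi S x
      = f y * if y = x then 2 ^ Fintype.card ι else 0 := fun y => by
    rw [← sum_chi_mul, mul_sum]; exact sum_congr rfl fun S _ => by ring
  simp only [this, mul_ite, mul_zero, sum_ite_eq', mem_univ, if_true]
  field_simp

theorem mem_Sp_of_fhat {P : Finset ι → Prop} {f : (ι → Bool) → ℝ}
    (h : ∀ S, ¬ P S → fhat f S = 0) : f ∈ Sp P := by
  rw [fourier_eq f]
  refine Submodule.sum_mem _ fun S _ => ?_
  by_cases hS : P S
  · exact Submodule.smul_mem _ _ (chi_mem hS)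
  · simp [h S hS]

theorem cubeAvg_add (f g : (ι → Bool) → ℝ) : cubeAvg (f + g) = cubeAvg f + cubeAvg g := by
  simp [cubeAvg, sum_add_distrib, add_div]

theorem cubeAvg_smul (a : ℝ) (f : (ι → Bool) → ℝ) : cubeAvg (a • f) = a * cubeAvg f := by
  simp [cubeAvg, ← mul_sum, mul_div_assoc]

theorem cubeAvg_const (a : ℝ) : cubeAvg (fun _ : ι → Bool => a) = a := by
  simp [cubeAvg]

theorem cubeAvg_eq_fhat (f : (ι → Bool) → ℝ) : cubeAvg f = fhat f ∅ := by simp [fhat]

theorem cubeAvg_chi (S : Finset ι) : cubeAvg (chi S) = if S = ∅ then 1 else 0 := by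
  split_ifs with h
  · subst h
    have : (chi ∅ : (ι → Bool) → ℝ) = fun _ => 1 := funext fun x => chi_empty x
    rw [this, cubeAvg_const]
  · obtain ⟨i, hi⟩ := nonempty_iff_ne_empty.2 h
    rw [cubeAvg]
    refine div_eq_zero_iff.2 (Or.inl ?_)
    refine sum_ninvolution (fun x => Function.update x i (!(x i))) (fun x => ?_) (fun x _ hx => ?_)
      (fun x => mem_univ _) (fun x => by simp)
    · have h1 : ∏ j ∈ S.erase i, spin (Function.update x i (!(x i)) j)
          = ∏ j ∈ S.erase i, spin (x j) :=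
        prod_congr rfl fun j hj => by rw [Function.update_of_ne (ne_of_mem_erase hj)]
      simp only [chi, ← mul_prod_erase S _ hi, h1, Function.update_self, spin_not]
      ring
    · have := congrFun hx i
      simp at this

theorem fhat_chi (S T : Finset ι) : fhat (chi S) T = if S = T then 1 else 0 := by
  have : (fun x : ι → Bool => chi S x * chi T x) = chi (symmDiff S T) :=
    funext fun x => chi_mul S T x
  simp only [fhat, this, cubeAvg_chi, ← bot_eq_empty, symmDiff_eq_bot]

theorem fhat_eq_zero {P : Finset ι → Prop} {f : (ι → Bool) → ℝ} (hf : f ∈ Sp P)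
    {T : Finset ι} (hT : ¬ P T) : fhat f T = 0 := by
  induction hf using Submodule.span_induction with
  | mem g hg =>
    obtain ⟨S, hS, rfl⟩ := hg
    rw [fhat_chi, if_neg]
    rintro rfl; exact hT hS
  | zero => simp [fhat, cubeAvg]
  | add g h _ _ h1 h2 =>
    simp only [fhat, Pi.add_apply, add_mul] at *
    rw [show (fun x => g x * chi T x + h x * chi T x)
      = (fun x => g x * chi T x) + fun x => h x * chi T x from rfl, cubeAvg_add, h1, h2, add_zero]
  | smul a g _ h1 =>
    simp only [fhat, Pi.smul_apply, smul_eq_mul, mul_assoc] at *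
    rw [show (fun x => a * (g x * chi T x)) = a • fun x => g x * chi T x from rfl,
      cubeAvg_smul, h1, mul_zero]

theorem cubeAvg_eq_zero {Γ : Finset ι} {b : ℕ} {ne : Prop} (hne : ne) {f : (ι → Bool) → ℝ}
    (hf : f ∈ Sp (Lim Γ b ne)) : cubeAvg f = 0 := by
  rw [cubeAvg_eq_fhat]
  exact fhat_eq_zero hf fun h => by simpa using h.2.2 hne

theorem degree_le {Γ : Finset ι} {b : ℕ} {ne : Prop} {f : (ι → Bool) → ℝ}
    (hf : f ∈ Sp (Lim Γ b ne)) : degree f ≤ b := by
  refine Finset.sup_le fun S hS => ?_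
  by_contra hb
  exact (mem_filter.1 hS).2 (fhat_eq_zero hf fun h => hb h.2.1)

theorem linSum_eq (f : (ι → Bool) → ℝ) :
    linSum f = cubeAvg fun x => f x * ∑ i, spin (x i) := by
  simp only [linSum, fhat, cubeAvg, chi_singleton, mul_sum]
  rw [← sum_div, sum_comm]

end Vale.Agent.P047
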