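import Mathlib

/-!
A spread family has a member inside most sets of moderate size.
-/

namespace Vale.Agent.P047

open Finset

variable {α β : Type*} [DecidableEq α]

theorem choose_add_le (n w : ℕ) (hw : 0 < w) (n0 : ℕ) (hn : n ≤ n0) :
    ∀ t, ((n.choose (w + t) : ℕ) : ℝ) ≤ (n.choose w : ℝ) * ((n0 : ℝ) / w) ^ t := by
  intro t
  induction t with
  | zero => simp
  | succ t ih =>
    have h1 : n.choose (w + t + 1) * (w + t + 1) ≤ n.choose (w + t) * n0 := by
      rw [Nat.choose_succ_right_eq]
      exact Nat.mul_le_mul_left _ ((Nat.sub_le _ _).trans hn)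
    have h2 : (n.choose (w + t + 1) : ℝ) * w ≤ (n.choose (w + t) : ℝ) * n0 := by
      have : n.choose (w + t + 1) * w ≤ n.choose (w + t) * n0 :=
        (Nat.mul_le_mul_left _ (by omega : w ≤ w + t + 1)).trans h1
      exact_mod_cast this
    have hw' : (0 : ℝ) < w := by exact_mod_cast hw
    calc ((n.choose (w + (t + 1)) : ℕ) : ℝ) ≤ (n.choose (w + t) : ℝ) * ((n0 : ℝ) / w) := by
          rw [← add_assoc, mul_div, le_div_iff₀ hw']; exact h2
      _ ≤ (n.choose w : ℝ) * ((n0 : ℝ) / w) ^ t * ((n0 : ℝ) / w) :=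
          mul_le_mul_of_nonneg_right ih (by positivity)
      _ = _ := by ring

theorem geom_Icc (l : ℝ) (h0 : 0 ≤ l) (h1 : l ≤ 1 / 2) (a : ℕ) :
    ∀ b, ∑ t ∈ Icc a b, l ^ t ≤ 2 * l ^ a := by
  intro b
  rw [← Ico_add_one_right_eq_Icc, sum_Ico_eq_sum_range]
  simp only [pow_add, ← mul_sum]
  rw [mul_comm 2]
  refine mul_le_mul_of_nonneg_left ?_ (pow_nonneg h0 a)
  refine le_of_mul_le_mul_right ?_ (by linarith : (0 : ℝ) < 1 - l)
  rw [geom_sum_mul_neg]
  have : (0 : ℝ) ≤ l ^ (b + 1 - a) := pow_nonneg h0 _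
  linarith

/-- Average number of indices with a large fragment. -/
theorem fragment_count (X : Finset α) (s : Finset β) (S : β → Finset α)
    (frag : Finset α → β → Finset α) (r h w n0 κ B : ℕ) (hh : r ≤ 2 * h + 1)
    (hn : X.card ≤ n0) (hw : 0 < w) (hκ : 16 * n0 ≤ w * κ) (hκ0 : 0 < κ)
    (hS : ∀ i ∈ s, S i ⊆ X ∧ (S i).card ≤ r)
    (hspread : ∀ T : Finset α, (s.filter fun i => T ⊆ S i).card * κ ^ T.card ≤ B)
    (hfrag : ∀ W, ∀ i ∈ s, ∃ j ∈ s, S j ⊆ S i ∪ W ∧ frag W i = S j \ W ∧
      ∀ j' ∈ s, S j' ⊆ S i ∪ W → (S j \ W).card ≤ (S j' \ W).card) :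
    (∑ W ∈ X.powersetCard w, ((s.filter fun i => h < (frag W i).card).card : ℝ))
      ≤ (X.card.choose w : ℝ) * (4 * ((n0 : ℝ) / ((w : ℝ) * κ))) * B := by
  classical
  obtain ⟨l, hl⟩ : ∃ l : ℝ, l = (n0 : ℝ) / ((w : ℝ) * κ) := ⟨_, rfl⟩
  rw [← hl]
  have hl0 : 0 ≤ l := hl ▸ by positivity
  have hl1 : l ≤ 1 / 16 := by
    rw [hl, div_le_iff₀ (by positivity)]
    have : (16 * n0 : ℝ) ≤ (w : ℝ) * κ := by exact_mod_cast hκ
    linarith
  have hsub : ∀ W, ∀ i ∈ s, frag W i ⊆ S i := by
    intro W i hi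
    obtain ⟨j, -, hj, he, -⟩ := hfrag W i hi
    rw [he]; exact sdiff_le_iff.2 (hj.trans (by rw [union_comm]; exact subset_rfl))
  let cand : Finset α → Finset α := fun Z =>
    if hZ : ∃ j ∈ s, S j ⊆ Z then S hZ.choose else ∅
  have hcand : ∀ Z, (cand Z).card ≤ r := fun Z => by
    simp only [cand]
    split_ifs with hZ
    · exact (hS _ hZ.choose_spec.1).2
    · simp
  set P := (X.powersetCard w).sigma fun W => s.filter fun i => h < (frag W i).card
  have hcount : (P.card : ℝ) = ∑ W ∈ X.powersetCard w,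
      ((s.filter fun i => h < (frag W i).card).card : ℝ) := by
    simp [P]
  rw [← hcount]
  have hP : P ⊆ (Icc (h + 1) r).biUnion fun t => (X.powersetCard (w + t)).biUnion fun Z =>
      (((cand Z).powerset.filter fun T => T.card = t)).biUnion fun T =>
        (s.filter fun i => T ⊆ S i).map
          ⟨fun i => (⟨Z \ T, i⟩ : (_ : Finset α) × β), fun a b hab => by simpa using hab⟩ := by
    rintro ⟨W, i⟩ hWi
    obtain ⟨hW, hi⟩ := mem_sigma.1 hWi
    obtain ⟨hWX, hWc⟩ := mem_powersetCard.1 hW
    obtain ⟨hi, hlarge⟩ := mem_filter.1 hi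
    obtain ⟨j, hj, hjs, he, hmin⟩ := hfrag W i hi
    have hTS := hsub W i hi
    have hdis : Disjoint W (frag W i) := by rw [he]; exact disjoint_sdiff
    have hZc : (W ∪ frag W i).card = w + (frag W i).card := by
      rw [card_union_of_disjoint hdis, hWc]
    have hex : ∃ j ∈ s, S j ⊆ W ∪ frag W i :=
      ⟨j, hj, by rw [he, union_sdiff_self_eq_union]; exact subset_union_right⟩
    have hc : cand (W ∪ frag W i) = S hex.choose := by simp only [cand, dif_pos hex]
    obtain ⟨hj0, hj0s⟩ := hex.choose_spec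
    have hTc : frag W i ⊆ cand (W ∪ frag W i) := by
      have h1 : S hex.choose \ W ⊆ frag W i := by
        intro a ha
        obtain ⟨ha1, ha2⟩ := mem_sdiff.1 ha
        exact (mem_union.1 (hj0s ha1)).resolve_left ha2
      have h2 : S hex.choose ⊆ S i ∪ W := by
        refine hj0s.trans (union_subset subset_union_right ?_)
        exact hTS.trans subset_union_left
      have h3 := hmin _ hj0 h2
      rw [← he] at h3
      have h4 := eq_of_subset_of_card_le h1 h3
      rw [hc]
      exact h4.symm.le.trans sdiff_subset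
    simp only [mem_biUnion, mem_Icc, mem_powersetCard, mem_filter, mem_powerset, mem_map]
    refine ⟨(frag W i).card, ⟨hlarge, (card_le_card hTS).trans (hS i hi).2⟩, W ∪ frag W i,
      ⟨union_subset hWX (hTS.trans (hS i hi).1), hZc⟩, frag W i, ⟨hTc, rfl⟩, i, ⟨hi, hTS⟩, ?_⟩
    show (⟨(W ∪ frag W i) \ frag W i, i⟩ : (_ : Finset α) × β) = ⟨W, i⟩
    rw [union_sdiff_cancel_right hdis]
  have hfib : ∀ t Z, ∀ T ∈ (cand Z).powerset.filter (fun T => T.card = t),
      ((s.filter fun i => T ⊆ S i).card : ℝ) ≤ (B : ℝ) / (κ : ℝ) ^ t := by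
    intro t Z T hT
    rw [le_div_iff₀ (by positivity)]
    have := hspread T
    rw [(mem_filter.1 hT).2] at this
    exact_mod_cast this
  calc (P.card : ℝ)
      ≤ ∑ t ∈ Icc (h + 1) r, ∑ Z ∈ X.powersetCard (w + t),
          ∑ T ∈ (cand Z).powerset.filter (fun T => T.card = t),
            ((s.filter fun i => T ⊆ S i).card : ℝ) := by
        have h1 := card_le_card hP
        have h2 : P.card ≤ ∑ t ∈ Icc (h + 1) r, ∑ Z ∈ X.powersetCard (w + t),
            ∑ T ∈ (cand Z).powerset.filter (fun T => T.card = t),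
              (s.filter fun i => T ⊆ S i).card := by
          refine h1.trans (card_biUnion_le.trans (sum_le_sum fun t _ => card_biUnion_le.trans
            (sum_le_sum fun Z _ => card_biUnion_le.trans (sum_le_sum fun T _ => ?_))))
          rw [card_map]
        exact_mod_cast h2
    _ ≤ ∑ t ∈ Icc (h + 1) r, ∑ _Z ∈ X.powersetCard (w + t), (2 : ℝ) ^ r * ((B : ℝ) / (κ : ℝ) ^ t) := by
        refine sum_le_sum fun t _ => sum_le_sum fun Z _ => ?_
        refine (sum_le_card_nsmul _ _ _ (hfib t Z)).trans ?_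
        rw [nsmul_eq_mul]
        refine mul_le_mul_of_nonneg_right ?_ (by positivity)
        have : ((cand Z).powerset.filter fun T => T.card = t).card ≤ 2 ^ r := by
          refine (card_filter_le _ _).trans ?_
          rw [card_powerset]
          exact Nat.pow_le_pow_right (by norm_num) (hcand Z)
        exact_mod_cast this
    _ ≤ ∑ t ∈ Icc (h + 1) r, (X.card.choose w : ℝ) * (2 : ℝ) ^ r * B * l ^ t := by
        refine sum_le_sum fun t _ => ?_
        rw [sum_const, card_powersetCard, nsmul_eq_mul]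
        refine (mul_le_mul_of_nonneg_right (choose_add_le X.card w hw n0 hn t) (by positivity)).trans
          (le_of_eq ?_)
        rw [hl, div_pow, div_pow, mul_pow]
        field_simp
    _ ≤ (X.card.choose w : ℝ) * (2 : ℝ) ^ r * B * (2 * l ^ (h + 1)) := by
        rw [← mul_sum]
        exact mul_le_mul_of_nonneg_left (geom_Icc l hl0 (by linarith) _ _) (by positivity)
    _ ≤ _ := by
        have h1 : (2 : ℝ) ^ r * 2 ≤ 4 ^ (h + 1) := by
          rw [← pow_succ, show (4 : ℝ) = 2 ^ 2 by norm_num, ← pow_mul]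
          exact pow_le_pow_right₀ (by norm_num) (by omega)
        have h2 : (4 * l) ^ (h + 1) ≤ 4 * l :=
          pow_le_of_le_one (by positivity) (by linarith) (by omega)
        have h3 : (2 : ℝ) ^ r * (2 * l ^ (h + 1)) ≤ 4 * l := by
          refine le_trans ?_ h2
          rw [mul_pow, ← mul_assoc]
          exact mul_le_mul_of_nonneg_right h1 (pow_nonneg hl0 _)
        calc (X.card.choose w : ℝ) * (2 : ℝ) ^ r * B * (2 * l ^ (h + 1))
            = (X.card.choose w : ℝ) * B * ((2 : ℝ) ^ r * (2 * l ^ (h + 1))) := by ring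
          _ ≤ (X.card.choose w : ℝ) * B * (4 * l) := mul_le_mul_of_nonneg_left h3 (by positivity)
          _ = _ := by ring

/-- The sets of size `L * w` without a member are rare. -/
theorem fail_count (n0 w κ B : ℕ) (hw : 0 < w) (hκ : 16 * n0 ≤ w * κ) (hκ0 : 0 < κ) :
    ∀ (L : ℕ) (X : Finset α) (s : Finset β) (S : β → Finset α) (r : ℕ),
      r < 2 ^ L → X.card ≤ n0 → (∀ i ∈ s, S i ⊆ X ∧ (S i).card ≤ r) →
      (∀ T : Finset α, (s.filter fun i => T ⊆ S i).card * κ ^ T.card ≤ B) →
      (((X.powersetCard (L * w)).filter fun Y => ∀ i ∈ s, ¬ S i ⊆ Y).card : ℝ) * B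
        ≤ (X.card.choose (L * w) : ℝ) *
            ((B : ℝ) - s.card + 4 * ((n0 : ℝ) / ((w : ℝ) * κ)) * L * B) := by
  classical
  intro L
  induction L with
  | zero =>
    intro X s S r hr _ hS hsp
    have hsB : (s.card : ℝ) ≤ B := by
      have := hsp ∅
      simp only [empty_subset, filter_true, card_empty, pow_zero, mul_one] at this
      exact_mod_cast this
    rcases s.eq_empty_or_nonempty with rfl | ⟨i, hi⟩
    · simp
    · have : ((X.powersetCard (0 * w)).filter fun Y => ∀ i ∈ s, ¬ S i ⊆ Y) = ∅ := by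
        refine filter_eq_empty_iff.2 fun Y _ h => h i hi ?_
        have : (S i).card = 0 := by have := (hS i hi).2; simp at hr; omega
        rw [card_eq_zero.1 this]; exact empty_subset _
      rw [this]
      simp only [card_empty, Nat.cast_zero, zero_mul, mul_zero, add_zero]
      exact mul_nonneg (by positivity) (by linarith)
  | succ L ih =>
    intro X s S r hr hX hS hsp
    have hsB : (s.card : ℝ) ≤ B := by
      have := hsp ∅
      simp only [empty_subset, filter_true, card_empty, pow_zero, mul_one] at this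
      exact_mod_cast this
    obtain ⟨l, hl⟩ : ∃ l : ℝ, l = (n0 : ℝ) / ((w : ℝ) * κ) := ⟨_, rfl⟩
    rw [← hl] at ih ⊢
    have hl0 : 0 ≤ l := hl ▸ by positivity
    have hrhs : 0 ≤ (B : ℝ) - s.card + 4 * l * ((L + 1 : ℕ) : ℝ) * B := by
      have : 0 ≤ 4 * l * ((L + 1 : ℕ) : ℝ) * B := by positivity
      linarith
    rcases lt_or_ge X.card ((L + 1) * w) with hsmall | hbig
    · rw [powersetCard_eq_empty.2 hsmall]
      simp only [filter_empty, card_empty, Nat.cast_zero, zero_mul]
      exact mul_nonneg (by positivity) hrhs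
    obtain ⟨h, hh⟩ : ∃ h, h = r / 2 := ⟨_, rfl⟩
    -- fragments
    have hex : ∀ W : Finset α, ∀ i : β, ∃ T : Finset α, i ∈ s → ∃ j ∈ s, S j ⊆ S i ∪ W ∧
        T = S j \ W ∧ ∀ j' ∈ s, S j' ⊆ S i ∪ W → (S j \ W).card ≤ (S j' \ W).card := by
      intro W i
      by_cases hi : i ∈ s
      · obtain ⟨j, hj, hmin⟩ := exists_min_image (s.filter fun j => S j ⊆ S i ∪ W)
          (fun j => (S j \ W).card) ⟨i, mem_filter.2 ⟨hi, subset_union_left⟩⟩
        obtain ⟨hj1, hj2⟩ := mem_filter.1 hj
        exact ⟨S j \ W, fun _ => ⟨j, hj1, hj2, rfl, fun j' h1 h2 => hmin j' (mem_filter.2 ⟨h1, h2⟩)⟩⟩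
      · exact ⟨∅, fun h => absurd h hi⟩
    choose frag hfrag using hex
    set sW : Finset α → Finset β := fun W => s.filter fun i => (frag W i).card ≤ h
    have hbad := fragment_count X s S frag r h w n0 κ B (by omega) hX hw hκ hκ0 hS hsp hfrag
    rw [← hl] at hbad
    have hstep : ∀ W ∈ X.powersetCard w,
        ((((X \ W).powersetCard (L * w)).filter fun Y => ∀ i ∈ sW W, ¬ frag W i ⊆ Y).card : ℝ) * B
          ≤ ((X.card - w).choose (L * w) : ℝ) *
              ((B : ℝ) - s.card + 4 * l * L * B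
                + ((s.filter fun i => h < (frag W i).card).card : ℝ)) := by
      intro W hW
      obtain ⟨hWX, hWc⟩ := mem_powersetCard.1 hW
      have hc : (X \ W).card = X.card - w := by rw [card_sdiff_of_subset hWX, hWc]
      have := ih (X \ W) (sW W) (frag W) h (by rw [pow_succ] at hr; omega)
        (by rw [hc]; omega) (fun i hi => by
          obtain ⟨hi1, hi2⟩ := mem_filter.1 hi
          obtain ⟨j, hj, -, he, -⟩ := hfrag W i hi1
          exact ⟨he ▸ sdiff_subset_sdiff (hS j hj).1 subset_rfl, hi2⟩)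
        (fun T => le_trans (Nat.mul_le_mul_right _ (card_le_card fun i hi => by
          obtain ⟨hi1, hi2⟩ := mem_filter.1 hi
          have hi1' := (mem_filter.1 hi1).1
          refine mem_filter.2 ⟨hi1', hi2.trans ?_⟩
          obtain ⟨j, -, hj, he, -⟩ := hfrag W i hi1'
          rw [he]; exact sdiff_le_iff.2 (hj.trans (by rw [union_comm]; exact subset_rfl)))) (hsp T))
      rw [hc] at this
      have hsplit : ((sW W).card : ℝ) + ((s.filter fun i => h < (frag W i).card).card : ℝ)
          = s.card := by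
        have := card_filter_add_card_filter_not (s := s) (fun i => (frag W i).card ≤ h)
        simp only [not_le] at this
        exact_mod_cast this
      refine this.trans (le_of_eq ?_)
      rw [← hsplit]; ring
    set Fl := (X.powersetCard ((L + 1) * w)).filter fun Y => ∀ i ∈ s, ¬ S i ⊆ Y
    have hcount : (Fl.card * ((L + 1) * w).choose w : ℕ) ≤ ∑ W ∈ X.powersetCard w,
        (((X \ W).powersetCard (L * w)).filter fun Y => ∀ i ∈ sW W, ¬ frag W i ⊆ Y).card := by
      rw [← card_sigma, ← smul_eq_mul, ← sum_const]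
      have : ∑ _Y ∈ Fl, ((L + 1) * w).choose w = (Fl.sigma fun Y => Y.powersetCard w).card := by
        rw [card_sigma]
        refine sum_congr rfl fun Y hY => ?_
        rw [card_powersetCard, (mem_powersetCard.1 (mem_filter.1 hY).1).2]
      rw [this]
      refine card_le_card_of_injOn (fun p => (⟨p.2, p.1 \ p.2⟩ : (_ : Finset α) × Finset α)) ?_ ?_
      · rintro ⟨Y, W⟩ hp
        obtain ⟨hY, hW⟩ := mem_sigma.1 hp
        obtain ⟨hYp, hYf⟩ := mem_filter.1 hY
        obtain ⟨hYX, hYc⟩ := mem_powersetCard.1 hYp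
        obtain ⟨hWY, hWc⟩ := mem_powersetCard.1 hW
        refine mem_sigma.2 ⟨mem_powersetCard.2 ⟨hWY.trans hYX, hWc⟩, mem_filter.2
          ⟨mem_powersetCard.2 ⟨sdiff_subset_sdiff hYX subset_rfl, ?_⟩, fun i hi hsub => ?_⟩⟩
        · show (Y \ W).card = L * w
          rw [card_sdiff_of_subset hWY, hYc, hWc, Nat.succ_mul, Nat.add_sub_cancel]
        · obtain ⟨j, hj, -, he, -⟩ := hfrag W i (mem_filter.1 hi).1
          refine hYf j hj fun a ha => ?_
          by_cases haW : a ∈ W
          · exact hWY haW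
          · exact sdiff_subset (hsub (he ▸ mem_sdiff.2 ⟨ha, haW⟩))
      · rintro ⟨Y, W⟩ hp ⟨Y', W'⟩ hp' hpp
        simp only [Sigma.mk.injEq, heq_eq_eq] at hpp
        obtain ⟨h1, h2⟩ := hpp
        subst h1
        have e1 := (mem_powersetCard.1 (mem_sigma.1 hp).2).1
        have e2 := (mem_powersetCard.1 (mem_sigma.1 hp').2).1
        simp only at e1 e2 h2 ⊢
        have : Y = Y' := by
          calc Y = W ∪ (Y \ W) := (union_sdiff_of_subset e1).symm
            _ = W ∪ (Y' \ W) := by rw [h2]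
            _ = Y' := union_sdiff_of_subset e2
        rw [this]
    have hchoose : (X.card.choose ((L + 1) * w) : ℝ) * (((L + 1) * w).choose w : ℝ)
        = (X.card.choose w : ℝ) * ((X.card - w).choose (L * w) : ℝ) := by
      have := Nat.choose_mul (n := X.card) (k := (L + 1) * w) (s := w) (by rw [Nat.succ_mul]; omega)
      rw [show (L + 1) * w - w = L * w by rw [Nat.succ_mul]; omega] at this
      exact_mod_cast this
    have hpos : (0 : ℝ) < (((L + 1) * w).choose w : ℝ) := by
      exact_mod_cast Nat.choose_pos (by rw [Nat.succ_mul]; omega)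
    refine le_of_mul_le_mul_right ?_ hpos
    calc (Fl.card : ℝ) * B * (((L + 1) * w).choose w : ℝ)
        = ((Fl.card * ((L + 1) * w).choose w : ℕ) : ℝ) * B := by push_cast; ring
      _ ≤ (∑ W ∈ X.powersetCard w,
          ((((X \ W).powersetCard (L * w)).filter fun Y => ∀ i ∈ sW W, ¬ frag W i ⊆ Y).card : ℝ))
            * B := mul_le_mul_of_nonneg_right (by exact_mod_cast hcount) (by positivity)
      _ ≤ ∑ W ∈ X.powersetCard w, ((X.card - w).choose (L * w) : ℝ) *
              ((B : ℝ) - s.card + 4 * l * L * B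
                + ((s.filter fun i => h < (frag W i).card).card : ℝ)) := by
          rw [sum_mul]; exact sum_le_sum hstep
      _ = ((X.card - w).choose (L * w) : ℝ) *
            ((X.card.choose w : ℝ) * ((B : ℝ) - s.card + 4 * l * L * B)
              + ∑ W ∈ X.powersetCard w, ((s.filter fun i => h < (frag W i).card).card : ℝ)) := by
          rw [← mul_sum, sum_add_distrib, sum_const, card_powersetCard, nsmul_eq_mul]
      _ ≤ ((X.card - w).choose (L * w) : ℝ) *
            ((X.card.choose w : ℝ) * ((B : ℝ) - s.card + 4 * l * L * B)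
              + (X.card.choose w : ℝ) * (4 * l) * B) := by
          refine mul_le_mul_of_nonneg_left ?_ (by positivity)
          linarith
      _ = _ := by
          rw [mul_right_comm (X.card.choose ((L + 1) * w) : ℝ), hchoose]
          push_cast; ring

end Vale.Agent.P047
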